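import Crest.Agent.R126.Loc

/-!
Directional derivatives of locally effective functions, and uniform approximation of all iterated
directional derivatives through finite differences.
-/

set_option autoImplicit false

namespace Crest.Agent.R126

open scoped ContDiff Nat
open Crest.Agent.Lib.RatPrimrec

variable {X Q : Type*} [NormedAddCommGroup X] [NormedSpace ℝ X] [Primcodable Q]

theorem mvt_line {f : X → ℝ} (hf : Differentiable ℝ f) (x v : X) {h : ℝ} (hh : 0 < h) :
    ∃ ξ ∈ Set.Ioo 0 h, (f (x + h • v) - f x) / h = fderiv ℝ f (x + ξ • v) v := by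
  have hd : ∀ s : ℝ, HasDerivAt (fun s : ℝ => f (x + s • v)) (fderiv ℝ f (x + s • v) v) s := by
    intro s
    have h1 : HasDerivAt (fun s : ℝ => x + s • v) v s := by
      simpa using ((hasDerivAt_id s).smul_const v).const_add x
    exact (hf (x + s • v)).hasFDerivAt.comp_hasDerivAt s h1
  obtain ⟨ξ, hξ, hξ'⟩ := exists_hasDerivAt_eq_slope (fun s : ℝ => f (x + s • v))
    (fun s => fderiv ℝ f (x + s • v) v) hh
    (fun s _ => (hd s).continuousAt.continuousWithinAt) (fun s _ => hd s)
  exact ⟨ξ, hξ, by simpa using hξ'.symm⟩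

theorem contDiff_fderiv_apply {f : X → ℝ} (hf : ContDiff ℝ ∞ f) (v : X) :
    ContDiff ℝ ∞ (fun x => fderiv ℝ f x v) :=
  (hf.fderiv_right (m := ∞) le_rfl).clm_apply contDiff_const

theorem norm_iteratedFDeriv_fderiv_apply_le {f : X → ℝ} (hf : ContDiff ℝ ∞ f) (v : X) (i : ℕ)
    (x : X) :
    ‖iteratedFDeriv ℝ i (fun x => fderiv ℝ f x v) x‖ ≤ ‖v‖ * ‖iteratedFDeriv ℝ (i + 1) f x‖ := by
  rw [← norm_iteratedFDeriv_fderiv]
  exact norm_iteratedFDeriv_clm_apply_const (hf.fderiv_right (m := ∞) le_rfl).contDiffAt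
    (natCast_le_infty i)

theorem Loc.fderiv_apply {ι : Q → X} {f : X → ℝ} (hf : Loc ι f) (v : X) (τ : Q → ℚ → Q)
    (hτ : Primrec₂ τ) (hι : ∀ q h, ι (τ q h) = ι q + (h : ℝ) • v) :
    Loc ι (fun x => fderiv ℝ f x v) := by
  have hs := contDiff_fderiv_apply hf.smooth v
  obtain ⟨V, hV⟩ := exists_nat_ge ‖v‖
  have hb : LBdd (fun x => fderiv ℝ f x v) := by
    intro R
    obtain ⟨B, hB, hB'⟩ := hf.bdd R
    refine ⟨fun k => V * B (k + 1), Primrec.nat_mul.comp (Primrec.const _) (hB.comp Primrec.succ),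
      fun k i x hi hx => ?_⟩
    refine (norm_iteratedFDeriv_fderiv_apply_le hf.smooth v i x).trans ?_
    push_cast
    gcongr
    exact hB' (k + 1) (i + 1) x (by omega) hx
  refine ⟨hs, hb, fun R => ?_⟩
  obtain ⟨E, hE, hE'⟩ := hf.val (R + V)
  obtain ⟨A, hA⟩ := hb.exists_lipschitz hs (R + V)
  have hN : Primrec fun p : Q × ℕ => 2 * (p.2 + 1) * (A * V + 1) :=
    Primrec.nat_mul.comp (Primrec.nat_double.comp (Primrec.succ.comp Primrec.snd))
      (Primrec.const _)
  have hm : Primrec fun p : Q × ℕ => 4 * (p.2 + 1) * (2 * (p.2 + 1) * (A * V + 1)) :=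
    Primrec.nat_mul.comp (Primrec.nat_mul.comp (Primrec.const _) (Primrec.succ.comp Primrec.snd)) hN
  refine ⟨fun p => (E (τ p.1 ((2 * (p.2 + 1) * (A * V + 1) : ℕ) : ℚ)⁻¹,
      4 * (p.2 + 1) * (2 * (p.2 + 1) * (A * V + 1))) -
      E (p.1, 4 * (p.2 + 1) * (2 * (p.2 + 1) * (A * V + 1)))) *
        ((2 * (p.2 + 1) * (A * V + 1) : ℕ) : ℚ), ?_, fun q n hq => ?_⟩
  · exact rat_mul.comp (rat_sub.comp
      (hE.comp ((hτ.comp Primrec.fst (rat_inv.comp (rat_natCast.comp hN))).pair hm))
      (hE.comp (Primrec.fst.pair hm))) (rat_natCast.comp hN)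
  · simp only
    generalize hNdef : 2 * (n + 1) * (A * V + 1) = N
    generalize hmdef : 4 * (n + 1) * N = m
    replace hNdef := hNdef.symm
    replace hmdef := hmdef.symm
    have hNpos : 0 < N := by rw [hNdef]; positivity
    have hN1 : (1 : ℝ) ≤ N := by exact_mod_cast hNpos
    have hh : (0 : ℝ) < (N : ℝ)⁻¹ := by positivity
    have hh1 : (N : ℝ)⁻¹ ≤ 1 := inv_le_one_of_one_le₀ hN1
    have hball : ∀ s : ℝ, 0 ≤ s → s ≤ 1 → ‖ι q + s • v‖ ≤ ((R + V : ℕ) : ℝ) := by
      intro s hs0 hs1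
      refine (norm_add_le _ _).trans ?_
      rw [norm_smul, Real.norm_eq_abs, abs_of_nonneg hs0]
      push_cast
      have : s * ‖v‖ ≤ 1 * V := by gcongr
      linarith
    obtain ⟨ξ, hξ, hξ'⟩ := mvt_line (hf.smooth.differentiable (by simp)) (ι q) v hh
    have hq' : ‖ι q‖ ≤ ((R + V : ℕ) : ℝ) := by simpa using hball 0 le_rfl zero_le_one
    have h1 := hE' (τ q (N : ℚ)⁻¹) m (by
      rw [hι]; push_cast; simpa using hball _ hh.le hh1)
    have h2 := hE' q m hq'
    rw [hι] at h1
    have h3 := hA (ι q) (ι q + ξ • v) hq' (hball ξ hξ.1.le (hξ.2.le.trans hh1))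
    simp only [sub_add_cancel_left, norm_neg, norm_smul, Real.norm_eq_abs,
      abs_of_pos hξ.1] at h3
    rw [← hξ'] at h3
    push_cast at h1 ⊢
    set a := f (ι q + (N : ℝ)⁻¹ • v)
    set b := f (ι q)
    set c : ℝ := ((E (τ q (N : ℚ)⁻¹, m) : ℚ) : ℝ)
    set d : ℝ := ((E (q, m) : ℚ) : ℝ)
    set D := fderiv ℝ f (ι q) v
    have hn : (0 : ℝ) ≤ n := Nat.cast_nonneg n
    have key : D - (c - d) * N = (D - (a - b) / (N : ℝ)⁻¹) + ((a - c) - (b - d)) * N := by
      field_simp
      ring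
    rw [key]
    refine (abs_add_le _ _).trans ?_
    have h4 : (A : ℝ) * (ξ * ‖v‖) ≤ 1 / ((n : ℝ) + 1) / 2 := by
      calc (A : ℝ) * (ξ * ‖v‖) ≤ A * ((N : ℝ)⁻¹ * V) := by gcongr; exact hξ.2.le
        _ = (A * V) / N := by ring
        _ ≤ 1 / ((n : ℝ) + 1) / 2 := by
          rw [hNdef, div_div, div_le_div_iff₀ (by positivity) (by positivity)]
          push_cast
          have : (0 : ℝ) ≤ A * V := by positivity
          nlinarith
    have h5 : |((a - c) - (b - d)) * N| ≤ 1 / ((n : ℝ) + 1) / 2 := by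
      rw [abs_mul, abs_of_pos (by positivity : (0 : ℝ) < N)]
      calc |(a - c) - (b - d)| * N ≤ (1 / ((m : ℝ) + 1) + 1 / ((m : ℝ) + 1)) * N := by
            gcongr
            exact (abs_sub _ _).trans (add_le_add h1 h2)
        _ = 2 * N / ((m : ℝ) + 1) := by ring
        _ ≤ 1 / ((n : ℝ) + 1) / 2 := by
          rw [hmdef, div_div, div_le_div_iff₀ (by positivity) (by positivity)]
          push_cast
          nlinarith
    linarith

theorem Loc.deriv {f : ℝ → ℝ} (hf : Loc (fun q : ℚ => (q : ℝ)) f) :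
    Loc (fun q : ℚ => (q : ℝ)) (deriv f) :=
  (hf.fderiv_apply 1 (fun q h => q + h) rat_add (fun q h => by simp)).congr fun x => by simp

section Uniform

variable {D : Type*} (dir : D → X)

/-- Iterated directional derivative (outermost derivative first). -/
noncomputable def mder : List D → (X → ℝ) → X → ℝ
  | [], g => g
  | d :: ds, g => fun x => fderiv ℝ (mder ds g) x (dir d)

/-- Forward difference quotient. -/
noncomputable def fdq (h : ℝ) (d : D) (g : X → ℝ) : X → ℝ :=
  fun x => (g (x + h • dir d) - g x) / h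

/-- Iterated forward difference quotient. -/
noncomputable def ifdq (h : ℝ) : List D → (X → ℝ) → X → ℝ
  | [], g => g
  | d :: ds, g => ifdq h ds (fdq dir h d g)

theorem contDiff_mder {g : X → ℝ} (hg : ContDiff ℝ ∞ g) (ds : List D) :
    ContDiff ℝ ∞ (mder dir ds g) := by
  induction ds with
  | nil => exact hg
  | cons d ds ih => exact contDiff_fderiv_apply ih _

theorem contDiff_fdq {g : X → ℝ} (hg : ContDiff ℝ ∞ g) (h : ℝ) (d : D) :
    ContDiff ℝ ∞ (fdq dir h d g) :=
  ((hg.comp (contDiff_id.add contDiff_const)).sub hg).div_const h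

theorem mder_fdq {g : X → ℝ} (hg : ContDiff ℝ ∞ g) (h : ℝ) (d : D) (es : List D) :
    mder dir es (fdq dir h d g) = fdq dir h d (mder dir es g) := by
  induction es with
  | nil => rfl
  | cons e es ih =>
    funext x
    simp only [mder, ih]
    have hG := (contDiff_mder dir hg es).differentiable (by simp)
    set G := mder dir es g
    have h1 : HasFDerivAt (fun x => G (x + h • dir d)) (fderiv ℝ G (x + h • dir d)) x := by
      rw [hasFDerivAt_comp_add_right]
      exact (hG _).hasFDerivAt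
    have h2 := ((h1.sub (hG x).hasFDerivAt).const_smul h⁻¹).fderiv
    have h3 : fdq dir h d G = h⁻¹ • ((fun x => G (x + h • dir d)) - G) := by
      funext y
      simp [fdq, div_eq_inv_mul]
    rw [h3, h2]
    simp [fdq, div_eq_inv_mul]

theorem ifdq_sub_mder_le {h : ℝ} (hh : 0 < h) (K : ℝ) (ds : List D) :
    ∀ {g : X → ℝ}, ContDiff ℝ ∞ g →
      (∀ es : List D, es.length = ds.length + 1 → ∀ x, |mder dir es g x| ≤ K) →
      ∀ x, |ifdq dir h ds g x - mder dir ds g x| ≤ ds.length * h * K := by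
  induction ds with
  | nil => intro g _ _ x; simp [ifdq, mder]
  | cons d ds ih =>
    intro g hg hK x
    have h1 := ih (contDiff_fdq dir hg h d) (fun es hes y => by
      rw [mder_fdq dir hg]
      obtain ⟨ξ, -, hξ⟩ := mvt_line ((contDiff_mder dir hg es).differentiable (by simp)) y
        (dir d) hh
      have := hK (d :: es) (by simp [hes]) (y + ξ • dir d)
      simp only [mder] at this
      rw [← hξ] at this
      exact this) x
    rw [mder_fdq dir hg] at h1
    obtain ⟨ξ, hξ, hξ'⟩ := mvt_line ((contDiff_mder dir hg ds).differentiable (by simp)) x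
      (dir d) hh
    obtain ⟨η, -, hη⟩ := mvt_line ((contDiff_mder dir hg (d :: ds)).differentiable (by simp)) x
      (dir d) hξ.1
    have h2 := hK (d :: d :: ds) (by simp) (x + η • dir d)
    have h3 : mder dir (d :: d :: ds) g (x + η • dir d) =
        (fdq dir h d (mder dir ds g) x - mder dir (d :: ds) g x) / ξ := by
      have : mder dir (d :: d :: ds) g (x + η • dir d) =
        fderiv ℝ (mder dir (d :: ds) g) (x + η • dir d) (dir d) := rfl
      rw [this, ← hη]
      simp only [fdq, hξ']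
      rfl
    rw [h3, abs_div, abs_of_pos hξ.1, div_le_iff₀ hξ.1] at h2
    have hK0 : 0 ≤ K := (abs_nonneg _).trans (hK (d :: d :: ds) (by simp) x)
    have h4 : K * ξ ≤ K * h := by gcongr; exact hξ.2.le
    have key : ifdq dir h (d :: ds) g x - mder dir (d :: ds) g x =
        (ifdq dir h ds (fdq dir h d g) x - fdq dir h d (mder dir ds g) x) +
        (fdq dir h d (mder dir ds g) x - mder dir (d :: ds) g x) := by
      simp only [ifdq]; ring
    rw [key]
    refine (abs_add_le _ _).trans ?_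
    simp only [List.length_cons]
    push_cast
    linarith

theorem norm_iteratedFDeriv_mder_le (hdir : ∀ d, ‖dir d‖ ≤ 1) {g : X → ℝ} (hg : ContDiff ℝ ∞ g)
    (ds : List D) (x : X) :
    ∀ k, ‖iteratedFDeriv ℝ k (mder dir ds g) x‖ ≤ ‖iteratedFDeriv ℝ (k + ds.length) g x‖ := by
  induction ds with
  | nil => intro k; simp [mder]
  | cons d ds ih =>
    intro k
    refine (norm_iteratedFDeriv_fderiv_apply_le (contDiff_mder dir hg ds) (dir d) k x).trans ?_
    have h1 := ih (k + 1)
    have h2 : k + (d :: ds).length = k + 1 + ds.length := by simp; omega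
    rw [h2]
    calc _ ≤ 1 * ‖iteratedFDeriv ℝ (k + 1 + ds.length) g x‖ := by gcongr; exact hdir d
      _ = _ := one_mul _

theorem abs_mder_le (hdir : ∀ d, ‖dir d‖ ≤ 1) {g : X → ℝ} (hg : ContDiff ℝ ∞ g)
    (ds : List D) (x : X) : |mder dir ds g x| ≤ ‖iteratedFDeriv ℝ ds.length g x‖ := by
  have := norm_iteratedFDeriv_mder_le dir hdir hg ds x 0
  rwa [norm_iteratedFDeriv_zero, zero_add] at this

/-- The weighted points of an iterated difference quotient. -/
def stencil (τ : Q → D → ℚ → Q) (h : ℚ) (ds : List D) (q : Q) : List (ℚ × Q) :=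
  ds.foldr (fun d acc => acc.flatMap fun sp => [(sp.1 / h, τ sp.2 d h), (-sp.1 / h, sp.2)])
    [(1, q)]

omit [Primcodable Q] in
theorem ifdq_eq_stencil {ι : Q → X} {τ : Q → D → ℚ → Q}
    (hι : ∀ q d h, ι (τ q d h) = ι q + (h : ℝ) • dir d) (h : ℚ) (q : Q) (ds : List D) :
    ∀ g : X → ℝ, ifdq dir h ds g (ι q) =
      ((stencil τ h ds q).map fun sp => (sp.1 : ℝ) * g (ι sp.2)).sum := by
  induction ds with
  | nil => intro g; simp [ifdq, stencil]
  | cons d ds ih =>
    intro g
    simp only [ifdq]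
    rw [ih]
    simp only [stencil, List.foldr_cons]
    generalize List.foldr _ _ ds = L
    induction L with
    | nil => simp
    | cons a L ihL =>
      simp only [List.map_cons, List.sum_cons, List.flatMap_cons, List.map_append, List.sum_append,
        ihL, List.map_nil, List.sum_nil]
      simp only [hι, fdq]
      push_cast
      ring

omit [Primcodable Q] in
theorem stencil_weight {τ : Q → D → ℚ → Q} {h : ℚ} (hh : 0 < h) (q : Q) (ds : List D) :
    ((stencil τ h ds q).map fun sp => |(sp.1 : ℝ)|).sum = (2 / (h : ℝ)) ^ ds.length := by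
  have hh' : (0 : ℝ) < h := by exact_mod_cast hh
  induction ds with
  | nil => simp [stencil]
  | cons d ds ih =>
    rw [List.length_cons, pow_succ, ← ih]
    simp only [stencil, List.foldr_cons]
    generalize List.foldr _ _ ds = L
    induction L with
    | nil => simp
    | cons a L ihL =>
      simp only [List.map_cons, List.sum_cons, List.flatMap_cons, List.map_append, List.sum_append,
        ihL, List.map_nil, List.sum_nil]
      push_cast
      rw [abs_div, abs_div, abs_neg, abs_of_pos hh']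
      ring

theorem primrec_stencil [Primcodable D] {τ : Q → D → ℚ → Q}
    (hτ : Primrec fun p : Q × D × ℚ => τ p.1 p.2.1 p.2.2) :
    Primrec fun p : ℚ × List D × Q => stencil τ p.1 p.2.1 p.2.2 := by
  unfold stencil
  refine Primrec.list_foldr (Primrec.fst.comp Primrec.snd)
    (Primrec.list_cons.comp ((Primrec.const 1).pair (Primrec.snd.comp Primrec.snd))
      (Primrec.const [])) (h := fun (p : ℚ × List D × Q) (da : D × List (ℚ × Q)) =>
        da.2.flatMap fun sp => [(sp.1 / p.1, τ sp.2 da.1 p.1), (-sp.1 / p.1, sp.2)]) ?_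
  refine Primrec.list_flatMap (Primrec.snd.comp Primrec.snd) ?_
  have hh : Primrec fun z : ((ℚ × List D × Q) × D × List (ℚ × Q)) × ℚ × Q => z.1.1.1 :=
    Primrec.fst.comp (Primrec.fst.comp Primrec.fst)
  have hs : Primrec fun z : ((ℚ × List D × Q) × D × List (ℚ × Q)) × ℚ × Q => z.2.1 :=
    Primrec.fst.comp Primrec.snd
  have hp : Primrec fun z : ((ℚ × List D × Q) × D × List (ℚ × Q)) × ℚ × Q => z.2.2 :=
    Primrec.snd.comp Primrec.snd
  have hd : Primrec fun z : ((ℚ × List D × Q) × D × List (ℚ × Q)) × ℚ × Q => z.1.2.1 :=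
    Primrec.fst.comp (Primrec.snd.comp Primrec.fst)
  exact Primrec.list_cons.comp ((rat_div.comp hs hh).pair (hτ.comp (hp.pair (hd.pair hh))))
    (Primrec.list_cons.comp ((rat_div.comp (rat_neg.comp hs) hh).pair hp) (Primrec.const []))

theorem abs_list_sum_sub_le {α : Type*} (L : List α) (w : α → ℚ) (a : α → ℝ) (b : α → ℚ) (δ : ℝ)
    (hab : ∀ x, |a x - b x| ≤ δ) :
    |(L.map fun x => (w x : ℝ) * a x).sum - ((L.map fun x => w x * b x).sum : ℚ)| ≤
      (L.map fun x => |(w x : ℝ)|).sum * δ := by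
  induction L with
  | nil => simp
  | cons x L ih =>
    simp only [List.map_cons, List.sum_cons]
    push_cast
    have key : (w x : ℝ) * a x + (L.map fun x => (w x : ℝ) * a x).sum -
        ((w x : ℝ) * b x + ((L.map fun x => w x * b x).sum : ℚ)) =
        w x * (a x - b x) + ((L.map fun x => (w x : ℝ) * a x).sum -
          ((L.map fun x => w x * b x).sum : ℚ)) := by ring
    push_cast at key ih
    rw [key]
    refine (abs_add_le _ _).trans ?_
    rw [abs_mul, add_mul]
    gcongr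
    exact hab x

theorem uniform_approx [Primcodable D] (hdir : ∀ d, ‖dir d‖ ≤ 1) {ι : Q → X} {τ : Q → D → ℚ → Q}
    (hτ : Primrec fun p : Q × D × ℚ => τ p.1 p.2.1 p.2.2)
    (hι : ∀ q d h, ι (τ q d h) = ι q + (h : ℝ) • dir d)
    {f : X → ℝ} (hf : ContDiff ℝ ∞ f) {K : ℕ → ℕ} (hK : Primrec K)
    (hK' : ∀ k x, ‖iteratedFDeriv ℝ k f x‖ ≤ K k) {E : Q × ℕ → ℚ} (hE : Primrec E)
    (hE' : ∀ q n, |f (ι q) - E (q, n)| ≤ 1 / ((n : ℝ) + 1)) :
    ∃ F : List D × Q × ℕ → ℚ, Primrec F ∧
      ∀ ds q n, |mder dir ds f (ι q) - F (ds, q, n)| ≤ 1 / ((n : ℝ) + 1) := by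
  have hlen : Primrec fun p : List D × Q × ℕ => p.1.length := Primrec.list_length.comp Primrec.fst
  have hn2 : Primrec fun p : List D × Q × ℕ => 2 * (p.2.2 + 1) :=
    Primrec.nat_double.comp (Primrec.succ.comp (Primrec.snd.comp Primrec.snd))
  obtain ⟨N, hN, hNdef⟩ : ∃ N : List D × Q × ℕ → ℕ, Primrec N ∧
      ∀ p, N p = 2 * (p.2.2 + 1) * (p.1.length * K (p.1.length + 1)) + 1 :=
    ⟨_, Primrec.succ.comp (Primrec.nat_mul.comp hn2
      (Primrec.nat_mul.comp hlen (hK.comp (Primrec.succ.comp hlen)))), fun _ => rfl⟩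
  obtain ⟨m, hm, hmdef⟩ : ∃ m : List D × Q × ℕ → ℕ, Primrec m ∧
      ∀ p, m p = 2 * (p.2.2 + 1) * (2 * N p) ^ p.1.length :=
    ⟨_, Primrec.nat_mul.comp hn2 (nat_pow.comp (Primrec.nat_double.comp hN) hlen), fun _ => rfl⟩
  refine ⟨fun p => ((stencil τ ((N p : ℚ)⁻¹) p.1 p.2.1).map
    fun sp => sp.1 * E (sp.2, m p)).sum, ?_, fun ds q n => ?_⟩
  · refine rat_list_sum.comp (Primrec.list_map ((primrec_stencil hτ).comp
      ((rat_inv.comp (rat_natCast.comp hN)).pair
        (Primrec.fst.pair (Primrec.fst.comp Primrec.snd)))) ?_)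
    exact rat_mul.comp (Primrec.fst.comp Primrec.snd)
      (hE.comp ((Primrec.snd.comp Primrec.snd).pair (hm.comp Primrec.fst)))
  · have hN' := hNdef (ds, q, n)
    have hm' := hmdef (ds, q, n)
    simp only at hN' hm' ⊢
    set N₀ := N (ds, q, n)
    set m₀ := m (ds, q, n)
    have hNpos : 0 < N₀ := by omega
    have hNq : (0 : ℚ) < (N₀ : ℚ)⁻¹ := by positivity
    have hNr : (0 : ℝ) < N₀ := by exact_mod_cast hNpos
    have h1 := ifdq_sub_mder_le dir (h := (((N₀ : ℚ)⁻¹ : ℚ) : ℝ)) (by exact_mod_cast hNq)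
      (K (ds.length + 1)) ds hf (fun es hes x => by
        refine (abs_mder_le dir hdir hf es x).trans ?_
        rw [hes]
        exact hK' _ x) (ι q)
    rw [ifdq_eq_stencil dir hι] at h1
    have h2 := abs_list_sum_sub_le (stencil τ ((N₀ : ℚ)⁻¹) ds q) (fun sp => sp.1)
      (fun sp => f (ι sp.2)) (fun sp => E (sp.2, m₀)) _ (fun sp => hE' sp.2 m₀)
    rw [stencil_weight hNq] at h2
    have hn : (0 : ℝ) ≤ n := Nat.cast_nonneg n
    have h3 : (ds.length : ℝ) * (((N₀ : ℚ)⁻¹ : ℚ) : ℝ) * K (ds.length + 1) ≤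
        1 / ((n : ℝ) + 1) / 2 := by
      push_cast
      rw [mul_right_comm, ← div_eq_mul_inv, div_div, div_le_div_iff₀ hNr (by positivity), hN']
      push_cast
      nlinarith
    have h4 : (2 / (((N₀ : ℚ)⁻¹ : ℚ) : ℝ)) ^ ds.length * (1 / ((m₀ : ℝ) + 1)) ≤
        1 / ((n : ℝ) + 1) / 2 := by
      push_cast
      rw [div_inv_eq_mul, mul_one_div, div_div, div_le_div_iff₀ (by positivity) (by positivity),
        hm']
      push_cast
      nlinarith
    rw [abs_sub_comm] at h1
    refine (abs_sub_le _ _ _).trans ((add_le_add h1 h2).trans ?_)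
    linarith

end Uniform

end Crest.Agent.R126
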