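import Crest.Prelude.Def_BoxFlow
import Crest.Agent.R126.Deriv

/-!
A compactly supported field with locally effective components is effective; global integral curves.
-/

set_option autoImplicit false

namespace Crest.Agent.R126

open scoped ContDiff Nat Topology
open Crest.Agent.Lib.RatPrimrec Crest.AnalysisR.BoxFlow

/-- Rational space-time points. -/
def ι4 (q : ℚ × (Fin 3 → ℚ)) : ℝ × (Fin 3 → ℝ) := ((q.1 : ℝ), ratPoint q.2)

/-- Translation of a rational space-time point in a coordinate direction. -/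
def τ4 (q : ℚ × (Fin 3 → ℚ)) (d : Fin 4) (h : ℚ) : ℚ × (Fin 3 → ℚ) :=
  (q.1 + if d = 0 then h else 0, fun j => q.2 j + if d = j.succ then h else 0)

theorem direction_succ (j : Fin 3) : direction j.succ = (0, Pi.single j 1) := by
  simp [direction, Fin.succ_ne_zero]

theorem direction_zero : direction 0 = (1, 0) := by
  simp [direction]

theorem ι4_τ4 (q : ℚ × (Fin 3 → ℚ)) (d : Fin 4) (h : ℚ) :
    ι4 (τ4 q d h) = ι4 q + (h : ℝ) • direction d := by
  refine Fin.cases ?_ (fun i => ?_) d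
  · rw [direction_zero]
    ext j
    · simp [ι4, τ4]
    · simp [ι4, τ4, ratPoint, (Fin.succ_ne_zero j).symm]
  · rw [direction_succ]
    ext j
    · simp [ι4, τ4, Fin.succ_ne_zero]
    · by_cases hij : i = j
      · subst hij; simp [ι4, τ4, ratPoint]
      · simp [ι4, τ4, ratPoint, hij, Ne.symm hij]

theorem norm_direction_le (d : Fin 4) : ‖direction d‖ ≤ 1 := by
  refine Fin.cases ?_ (fun i => ?_) d
  · rw [direction_zero]; simp
  · rw [direction_succ]; simp [Pi.norm_single]

theorem primrec_τ4 : Primrec fun p : (ℚ × (Fin 3 → ℚ)) × Fin 4 × ℚ => τ4 p.1 p.2.1 p.2.2 := by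
  unfold τ4
  have hd : Primrec fun p : (ℚ × (Fin 3 → ℚ)) × Fin 4 × ℚ => p.2.1 := Primrec.fst.comp Primrec.snd
  have hh : Primrec fun p : (ℚ × (Fin 3 → ℚ)) × Fin 4 × ℚ => p.2.2 := Primrec.snd.comp Primrec.snd
  refine Primrec.pair (rat_add.comp (Primrec.fst.comp Primrec.fst)
    (Primrec.ite (Primrec.eq.comp hd (Primrec.const 0)) hh (Primrec.const 0))) ?_
  refine Primrec.fin_curry.2 (Primrec₂.swap (f := fun (j : Fin 3)
    (p : (ℚ × (Fin 3 → ℚ)) × Fin 4 × ℚ) => p.1.2 j + if p.2.1 = j.succ then p.2.2 else 0)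
    (Primrec.fin_curry₁.2 fun j => ?_))
  exact rat_add.comp (Primrec.fin_app.comp (Primrec.snd.comp Primrec.fst) (Primrec.const j))
    (Primrec.ite (Primrec.eq.comp hd (Primrec.const _)) hh (Primrec.const 0))

theorem loc_time : Loc ι4 (fun p => p.1) :=
  (Loc.clm (ContinuousLinearMap.fst ℝ ℝ (Fin 3 → ℝ)) (fun q => q.1) Primrec.fst
    (fun _ => rfl)).congr fun _ => rfl

theorem loc_coord (j : Fin 3) : Loc ι4 (fun p => p.2 j) :=
  (Loc.clm ((ContinuousLinearMap.proj j).comp (ContinuousLinearMap.snd ℝ ℝ (Fin 3 → ℝ)))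
    (fun q => q.2 j) (Primrec.fin_app.comp Primrec.snd (Primrec.const j))
    (fun _ => rfl)).congr fun _ => rfl

theorem Loc.pderiv {f : ℝ × (Fin 3 → ℝ) → ℝ} (hf : Loc ι4 f) (j : Fin 3) :
    Loc ι4 (fun p => fderiv ℝ f p (0, Pi.single j 1)) := by
  have := hf.fderiv_apply (direction j.succ) (fun q h => τ4 q j.succ h)
    (primrec_τ4.comp (Primrec.fst.pair ((Primrec.const _).pair Primrec.snd)))
    (fun q h => ι4_τ4 q _ h)
  rwa [direction_succ] at this

theorem rat_abs_le (R : ℕ) : PrimrecPred fun q : ℚ => |q| ≤ R :=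
  (PrimrecPred.and (rat_le.comp (Primrec.const (-(R : ℚ))) Primrec.id)
    (rat_le.comp Primrec.id (Primrec.const (R : ℚ)))).of_eq fun _ => abs_le.symm

theorem primrec_ball (R : ℕ) : PrimrecPred fun q : ℚ × (Fin 3 → ℚ) => ‖ι4 q‖ ≤ R := by
  have hc : ∀ j : Fin 3, PrimrecPred fun q : ℚ × (Fin 3 → ℚ) => |q.2 j| ≤ R := fun j =>
    (rat_abs_le R).comp (Primrec.fin_app.comp Primrec.snd (Primrec.const j))
  refine (PrimrecPred.and ((rat_abs_le R).comp Primrec.fst)
    (PrimrecPred.and (hc 0) (PrimrecPred.and (hc 1) (hc 2)))).of_eq fun q => ?_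
  rw [ι4, Prod.norm_mk, max_le_iff, pi_norm_le_iff_of_nonneg (Nat.cast_nonneg R)]
  simp only [Fin.forall_fin_succ, ratPoint, Real.norm_eq_abs, IsEmpty.forall_iff, and_true]
  norm_cast

theorem contDiff_mixedDeriv {U : Field} (hU : ContDiff ℝ ∞ U) (ds : List (Fin 4)) :
    ContDiff ℝ ∞ (mixedDeriv ds U) := by
  induction ds with
  | nil => exact hU
  | cons d ds ih => exact (ih.fderiv_right (m := ∞) le_rfl).clm_apply contDiff_const

theorem mixedDeriv_apply {U : Field} (hU : ContDiff ℝ ∞ U) (ds : List (Fin 4)) (j : Fin 3) :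
    (fun p => mixedDeriv ds U p j) = mder direction ds (fun p => U p j) := by
  induction ds with
  | nil => rfl
  | cons d ds ih =>
    funext p
    simp only [mixedDeriv, mder, ← ih]
    rw [fderiv_apply ((contDiff_mixedDeriv hU ds).differentiable (by simp) p)]
    rfl

theorem Loc.global {f : ℝ × (Fin 3 → ℝ) → ℝ} (hf : Loc ι4 f) (hc : HasCompactSupport f) :
    ∃ (F : List (Fin 4) × (ℚ × (Fin 3 → ℚ)) × ℕ → ℚ) (K : ℕ → ℕ), Primrec F ∧ Primrec K ∧
      (∀ ds q n, |mder direction ds f (ι4 q) - F (ds, q, n)| ≤ 1 / ((n : ℝ) + 1)) ∧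
      ∀ ds p, |mder direction ds f p| ≤ K ds.length := by
  classical
  obtain ⟨r, hr⟩ := hc.isCompact.isBounded.subset_closedBall 0
  obtain ⟨R, hR⟩ := exists_nat_ge r
  have hout : ∀ x, ¬ ‖x‖ ≤ R → x ∉ tsupport f := fun x hx hx' =>
    hx (le_trans (by simpa using hr hx') hR)
  obtain ⟨B, hB, hB'⟩ := hf.bdd R
  obtain ⟨E, hE, hE'⟩ := hf.val R
  have hK : ∀ k x, ‖iteratedFDeriv ℝ k f x‖ ≤ B k := by
    intro k x
    by_cases hx : ‖x‖ ≤ R
    · exact hB' k k x le_rfl hx
    · have : iteratedFDeriv ℝ k f x = 0 := by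
        by_contra h
        exact hout x hx (support_iteratedFDeriv_subset k h)
      rw [this, norm_zero]
      exact Nat.cast_nonneg _
  obtain ⟨F, hF, hF'⟩ := uniform_approx direction norm_direction_le primrec_τ4 ι4_τ4 hf.smooth hB hK
    (E := fun p => if ‖ι4 p.1‖ ≤ R then E p else 0)
    (Primrec.ite ((primrec_ball R).comp Primrec.fst) hE (Primrec.const 0)) (fun q n => by
      by_cases hx : ‖ι4 q‖ ≤ R
      · simp only [hx, if_true]
        exact hE' q n hx
      · simp only [hx, if_false]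
        rw [image_eq_zero_of_notMem_tsupport (hout _ hx)]
        simp only [Rat.cast_zero, sub_self, abs_zero]
        positivity)
  exact ⟨F, B, hF, hB, hF', fun ds p =>
    (abs_mder_le direction norm_direction_le hf.smooth ds p).trans (hK _ p)⟩

theorem effective_of_loc {U : Field} (hU : ∀ j, Loc ι4 (fun p => U p j))
    (hc : HasCompactSupport U) : Effective U := by
  have hs : ContDiff ℝ ∞ U := contDiff_pi.2 fun j => (hU j).smooth
  have hcj : ∀ j, HasCompactSupport (fun p => U p j) := fun j =>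
    hc.comp_left (g := fun v : Fin 3 → ℝ => v j) rfl
  choose F K hF hK hF' hK' using fun j => (hU j).global (hcj j)
  refine ⟨fun z j => F j z, fun ds => K 0 ds.length + K 1 ds.length + K 2 ds.length, ?_, ?_, ?_, ?_⟩
  · exact (Primrec.fin_curry.2 (Primrec₂.swap (f := F) (Primrec.fin_curry₁.2 hF))).to_comp
  · exact (Primrec.nat_add.comp (Primrec.nat_add.comp ((hK 0).comp Primrec.list_length)
      ((hK 1).comp Primrec.list_length)) ((hK 2).comp Primrec.list_length)).to_comp
  · intro ds t q n j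
    have := hF' j ds (t, q) n
    rwa [← mixedDeriv_apply hs] at this
  · intro ds p j
    have := hK' j ds p
    rw [← mixedDeriv_apply hs] at this
    refine this.trans ?_
    have h0 : (0 : ℝ) ≤ K 0 ds.length := Nat.cast_nonneg _
    have h1 : (0 : ℝ) ≤ K 1 ds.length := Nat.cast_nonneg _
    have h2 : (0 : ℝ) ≤ K 2 ds.length := Nat.cast_nonneg _
    push_cast
    fin_cases j <;> simp <;> linarith

theorem exists_integral_curve {U : Field} (hs : ContDiff ℝ ∞ U) (hc : HasCompactSupport U)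
    (h0 : ∀ p : ℝ × (Fin 3 → ℝ), p.1 ∉ Set.Icc (1 / 4 : ℝ) (3 / 4) → U p = 0)
    (x : Fin 3 → ℝ) :
    ∃ γ : ℝ → Fin 3 → ℝ, γ 0 = x ∧ ∀ t, HasDerivAt γ (U (t, γ t)) t := by
  obtain ⟨K, hK⟩ := hs.lipschitzWith_of_hasCompactSupport hc (by simp)
  obtain ⟨L, hL⟩ := hc.exists_bound_of_continuous hs.continuous
  have hL0 : 0 ≤ L := (norm_nonneg _).trans (hL 0)
  have hpl : IsPicardLindelof (fun t y => U (t, y)) (tmin := 0) (tmax := 1)
      ⟨0, by simp⟩ x ⟨L, hL0⟩ 0 ⟨L, hL0⟩ K := by
    refine ⟨fun t _ => ?_, fun y _ => ?_, fun t _ y _ => hL _, by simp⟩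
    · have := hK.comp (LipschitzWith.prodMk_left (β := Fin 3 → ℝ) t)
      rw [mul_one] at this
      exact this.lipschitzOnWith
    · exact (hs.continuous.comp (by fun_prop)).continuousOn
  obtain ⟨α, hα0, hα⟩ := hpl.exists_eq_forall_mem_Icc_hasDerivWithinAt₀
  have hcont : ContinuousOn α (Set.Icc 0 1) := fun t ht => (hα t ht).continuousWithinAt
  have hleft : ∀ t ∈ Set.Icc (0 : ℝ) (1 / 4), α t = α 0 := by
    refine constant_of_has_deriv_right_zero (hcont.mono (Set.Icc_subset_Icc le_rfl (by norm_num)))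
      fun t ht => ?_
    have h1 := hα t ⟨ht.1, by linarith [ht.2]⟩
    rw [h0 _ (fun h => absurd h.1 (not_le.2 ht.2))] at h1
    exact h1.mono_of_mem_nhdsWithin (Icc_mem_nhdsGE_of_mem ⟨ht.1, by linarith [ht.2]⟩)
  have hright : ∀ t ∈ Set.Icc (4 / 5 : ℝ) 1, α t = α (4 / 5) := by
    refine constant_of_has_deriv_right_zero (hcont.mono (Set.Icc_subset_Icc (by norm_num) le_rfl))
      fun t ht => ?_
    have h1 := hα t ⟨by linarith [ht.1], ht.2.le⟩
    rw [h0 _ (fun h => by linarith [h.2, ht.1])] at h1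
    exact h1.mono_of_mem_nhdsWithin (Icc_mem_nhdsGE_of_mem ⟨by linarith [ht.1], ht.2⟩)
  refine ⟨fun t => α (max 0 (min t 1)), by simpa using hα0, fun t => ?_⟩
  rcases lt_or_ge t (1 / 4) with ht | ht
  · rw [h0 _ (fun h => absurd h.1 (not_le.2 ht))]
    refine (hasDerivAt_const t (α 0)).congr_of_eventuallyEq ?_
    filter_upwards [Iio_mem_nhds ht] with s hs
    refine hleft _ ⟨le_max_left _ _, max_le (by norm_num) ((min_le_left _ _).trans hs.le)⟩
  · rcases lt_or_ge (4 / 5) t with ht' | ht'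
    · rw [h0 _ (fun h => by linarith [h.2])]
      refine (hasDerivAt_const t (α (4 / 5))).congr_of_eventuallyEq ?_
      filter_upwards [Ioi_mem_nhds ht'] with s hs
      refine hright _ ⟨le_max_of_le_right (le_min hs.le (by norm_num)),
        max_le (by norm_num) (min_le_right _ _)⟩
    · have ht0 : 0 < t := by linarith
      have ht1 : t < 1 := by linarith
      have h1 : max 0 (min t 1) = t := by rw [min_eq_left ht1.le, max_eq_right ht0.le]
      simp only [h1]
      refine ((hα t ⟨ht0.le, ht1.le⟩).hasDerivAt (Icc_mem_nhds ht0 ht1)).congr_of_eventuallyEq ?_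
      filter_upwards [Ioo_mem_nhds ht0 ht1] with s hs
      rw [min_eq_left hs.2.le, max_eq_right hs.1.le]

end Crest.Agent.R126
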