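import Crest.Agent.R126.Loc

/-!
`expNegInvGlue` and `Real.smoothTransition` are locally effective.
-/

set_option autoImplicit false

namespace Crest.Agent.R126

open scoped ContDiff Nat
open Crest.Agent.Lib.RatPrimrec Polynomial

/-- The functions `x⁻¹ ^ j * exp (-x⁻¹)`, extended by zero. -/
noncomputable def glueP (j : ℕ) (x : ℝ) : ℝ := x⁻¹ ^ j * expNegInvGlue x

theorem contDiff_glueP (j : ℕ) : ContDiff ℝ ∞ (glueP j) := by
  have := expNegInvGlue.contDiff_polynomial_eval_inv_mul (n := ⊤) ((X : ℝ[X]) ^ j)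
  have h1 : (fun x : ℝ => eval x⁻¹ ((X : ℝ[X]) ^ j) * expNegInvGlue x) = glueP j := by
    funext y; simp [glueP]
  rwa [h1] at this

theorem deriv_glueP (j : ℕ) :
    deriv (glueP j) = fun x => -(j : ℝ) * glueP (j + 1) x + glueP (j + 2) x := by
  funext x
  have h := expNegInvGlue.hasDerivAt_polynomial_eval_inv_mul ((X : ℝ[X]) ^ j) x
  have h1 : (fun x : ℝ => eval x⁻¹ ((X : ℝ[X]) ^ j) * expNegInvGlue x) = glueP j := by
    funext y; simp [glueP]
  rw [h1] at h
  rw [h.deriv]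
  simp only [derivative_X_pow, eval_mul, eval_pow, eval_X, eval_sub, eval_C, glueP]
  rcases j with _ | j
  · simp
  · simp only [Nat.add_sub_cancel]
    ring

theorem abs_glueP_le (j : ℕ) (x : ℝ) : |glueP j x| ≤ (j ! : ℕ) := by
  unfold glueP expNegInvGlue
  split_ifs with hx
  · simp
  · have hx' : 0 < x⁻¹ := inv_pos.2 (not_le.1 hx)
    rw [abs_of_nonneg (by positivity)]
    have h := Real.pow_div_factorial_le_exp x⁻¹ hx'.le j
    rw [div_le_iff₀ (by positivity)] at h
    rw [Real.exp_neg, ← div_eq_mul_inv, div_le_iff₀ (Real.exp_pos _)]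
    linarith

theorem abs_iteratedDeriv_glueP_le (k : ℕ) : ∀ (j : ℕ) (x : ℝ),
    |iteratedDeriv k (glueP j) x| ≤ (((j + 2 * k + 1) ^ k * (j + 2 * k)! : ℕ) : ℝ) := by
  induction k with
  | zero => intro j x; simpa using abs_glueP_le j x
  | succ k ih =>
    intro j x
    rw [iteratedDeriv_succ', deriv_glueP]
    have h1 : ContDiffAt ℝ k (glueP (j + 1)) x :=
      (contDiff_glueP _).contDiffAt.of_le (natCast_le_infty k)
    have h2 : ContDiffAt ℝ k (glueP (j + 2)) x :=
      (contDiff_glueP _).contDiffAt.of_le (natCast_le_infty k)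
    rw [iteratedDeriv_fun_add (contDiffAt_const.mul h1) h2, iteratedDeriv_const_mul _ h1]
    refine (abs_add_le _ _).trans ?_
    rw [abs_mul, abs_neg, Nat.abs_cast]
    have h3 := ih (j + 1) x
    have h4 := ih (j + 2) x
    have h5 : j * ((j + 1 + 2 * k + 1) ^ k * (j + 1 + 2 * k)!) +
        (j + 2 + 2 * k + 1) ^ k * (j + 2 + 2 * k)! ≤
        (j + 2 * (k + 1) + 1) ^ (k + 1) * (j + 2 * (k + 1))! := by
      have e1 : j + 2 * (k + 1) = j + 2 + 2 * k := by ring
      rw [e1, pow_succ]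
      have a1 : (j + 1 + 2 * k + 1) ^ k ≤ (j + 2 + 2 * k + 1) ^ k :=
        Nat.pow_le_pow_left (by omega) k
      have a2 : (j + 1 + 2 * k)! ≤ (j + 2 + 2 * k)! := Nat.factorial_le (by omega)
      calc _ ≤ j * ((j + 2 + 2 * k + 1) ^ k * (j + 2 + 2 * k)!) +
            (j + 2 + 2 * k + 1) ^ k * (j + 2 + 2 * k)! := by gcongr
        _ = (j + 1) * ((j + 2 + 2 * k + 1) ^ k * (j + 2 + 2 * k)!) := by ring
        _ ≤ (j + 2 + 2 * k + 1) * ((j + 2 + 2 * k + 1) ^ k * (j + 2 + 2 * k)!) := by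
          gcongr; omega
        _ = _ := by ring
    have h6 : ((j * ((j + 1 + 2 * k + 1) ^ k * (j + 1 + 2 * k)!) +
        (j + 2 + 2 * k + 1) ^ k * (j + 2 + 2 * k)! : ℕ) : ℝ) ≤
        (((j + 2 * (k + 1) + 1) ^ (k + 1) * (j + 2 * (k + 1))! : ℕ) : ℝ) := by exact_mod_cast h5
    refine le_trans ?_ h6
    rw [Nat.cast_add, Nat.cast_mul j]
    gcongr

theorem glueP_zero : glueP 0 = expNegInvGlue := by
  funext x; simp [glueP]

theorem lbdd_expNegInvGlue : LBdd expNegInvGlue := by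
  intro R
  refine ⟨fun k => (2 * k + 1) ^ (3 * k), nat_pow.comp Primrec.nat_double_succ
    (Primrec.nat_mul.comp (Primrec.const 3) Primrec.id), fun k i x hi _ => ?_⟩
  rw [norm_iteratedFDeriv_eq_norm_iteratedDeriv, Real.norm_eq_abs, ← glueP_zero]
  refine (abs_iteratedDeriv_glueP_le i 0 x).trans ?_
  have : (0 + 2 * i + 1) ^ i * (0 + 2 * i)! ≤ (2 * k + 1) ^ (3 * k) := by
    have a1 : (0 + 2 * i + 1) ^ i ≤ (2 * k + 1) ^ k :=
      (Nat.pow_le_pow_left (by omega) i).trans (Nat.pow_le_pow_right (by omega) hi)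
    have a2 : (0 + 2 * i)! ≤ (2 * k + 1) ^ (2 * k) :=
      (Nat.factorial_le (by omega : 0 + 2 * i ≤ 2 * k)).trans ((Nat.factorial_le_pow _).trans
        (Nat.pow_le_pow_left (by omega) _))
    calc _ ≤ (2 * k + 1) ^ k * (2 * k + 1) ^ (2 * k) := by gcongr
      _ = _ := by rw [← pow_add]; congr 1; ring
  exact_mod_cast this

theorem exp_neg_approx {y : ℝ} (hy : 0 ≤ y) {N : ℕ} (hN : 2 ≤ N) :
    |Real.exp (-y) - ((1 + y / N)⁻¹) ^ N| ≤ 2 / ((N : ℝ) - 1) := by
  have hN' : (2 : ℝ) ≤ N := by exact_mod_cast hN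
  set z := y / N with hz
  have hz0 : 0 ≤ z := by positivity
  have h1 : Real.exp (-y) = Real.exp (-z) ^ N := by
    rw [← Real.exp_nat_mul, hz]
    congr 1
    field_simp
  set a := (1 + z)⁻¹ with ha
  set b := Real.exp (-z) with hb
  have hb0 : 0 ≤ b := (Real.exp_pos _).le
  have ha0 : 0 < a := by positivity
  have hba : b ≤ a := by
    rw [hb, ha, Real.exp_neg]
    exact inv_anti₀ (by positivity) (by linarith [Real.add_one_le_exp z])
  have hab : a - b ≤ z ^ 2 * a := by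
    have h2 : 1 - z ≤ b := by linarith [Real.add_one_le_exp (-z)]
    have h3 : a - (1 - z) = z ^ 2 * a := by
      rw [ha]; field_simp; ring
    linarith
  rw [h1]
  have h4 := abs_pow_sub_pow_le b a N
  rw [abs_sub_comm b a, abs_of_nonneg (sub_nonneg.2 hba), abs_of_nonneg hb0, abs_of_pos ha0,
    max_eq_right hba] at h4
  refine h4.trans ?_
  have h5 : (N.choose 2 : ℝ) * z ^ 2 ≤ (1 + z) ^ N := by
    rw [add_comm 1 z, add_pow]
    have := Finset.single_le_sum (s := Finset.range (N + 1))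
      (f := fun m => z ^ m * 1 ^ (N - m) * (N.choose m : ℝ)) (fun i _ => by positivity)
      (a := 2) (by simp; omega)
    simpa [mul_comm] using this
  rw [Nat.cast_choose_two] at h5
  have h6 : a ^ N * (1 + z) ^ N = 1 := by
    rw [← mul_pow, ha, inv_mul_cancel₀ (by positivity), one_pow]
  have h7 : a * a ^ (N - 1) = a ^ N := by
    rw [← pow_succ']; congr 1; omega
  have h8 : 0 < a ^ N := by positivity
  calc (a - b) * N * a ^ (N - 1) ≤ z ^ 2 * a * N * a ^ (N - 1) := by gcongr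
    _ = N * z ^ 2 * a ^ N := by rw [← h7]; ring
    _ ≤ 2 / ((N : ℝ) - 1) := by
      rw [le_div_iff₀ (by linarith)]
      have : a ^ N * ((N : ℝ) * (N - 1) / 2 * z ^ 2) ≤ a ^ N * (1 + z) ^ N := by gcongr
      nlinarith

theorem loc_expNegInvGlue : Loc (fun q : ℚ => (q : ℝ)) expNegInvGlue := by
  refine ⟨expNegInvGlue.contDiff, lbdd_expNegInvGlue, fun R => ?_⟩
  have hN : Primrec fun p : ℚ × ℕ => 2 * p.2 + 3 :=
    Primrec.nat_add.comp (Primrec.nat_double.comp Primrec.snd) (Primrec.const 3)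
  refine ⟨fun p => if p.1 ≤ 0 then 0 else ((1 + p.1⁻¹ / ((2 * p.2 + 3 : ℕ) : ℚ))⁻¹) ^ (2 * p.2 + 3),
    Primrec.ite (rat_nonpos.comp Primrec.fst) (Primrec.const 0) (rat_pow.comp (rat_inv.comp
      (rat_add.comp (Primrec.const 1) (rat_div.comp (rat_inv.comp Primrec.fst)
        (rat_natCast.comp hN)))) hN), fun q n _ => ?_⟩
  simp only [expNegInvGlue]
  by_cases hq : q ≤ 0
  · have : (q : ℝ) ≤ 0 := by exact_mod_cast hq
    rw [if_pos this, if_pos hq]
    simp only [Rat.cast_zero, sub_self, abs_zero]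
    positivity
  · have hq' : ¬ (q : ℝ) ≤ 0 := by exact_mod_cast hq
    rw [if_neg hq', if_neg hq]
    have h := exp_neg_approx (y := (q : ℝ)⁻¹) (inv_nonneg.2 (not_le.1 hq').le) (N := 2 * n + 3)
      (by omega)
    have h2 : (2 : ℝ) / (((2 * n + 3 : ℕ) : ℝ) - 1) = 1 / ((n : ℝ) + 1) := by
      push_cast
      have : (2 : ℝ) * n + 3 - 1 = 2 * (n + 1) := by ring
      rw [this]
      field_simp
    rw [h2] at h
    simpa using h

theorem loc_id : Loc (fun q : ℚ => (q : ℝ)) (fun x : ℝ => x) :=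
  (Loc.clm (ContinuousLinearMap.id ℝ ℝ) id Primrec.id (fun _ => rfl)).congr fun _ => rfl

theorem loc_smoothTransition : Loc (fun q : ℚ => (q : ℝ)) Real.smoothTransition := by
  have h1 : Loc (fun q : ℚ => (q : ℝ)) (fun x : ℝ => expNegInvGlue (1 - x)) :=
    loc_expNegInvGlue.comp (((Loc.const 1).sub loc_id).congr fun x => by simp)
  exact (loc_expNegInvGlue.div (loc_expNegInvGlue.add h1)
    Real.smoothTransition.pos_denom).congr fun x => rfl

end Crest.Agent.R126
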