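import Crest.Agent.R126.Effective
import Crest.Agent.R126.Glue

/-!
Extension of affine motions of disjoint boxes to an effective divergence-free field.
-/

set_option autoImplicit false

namespace Crest.Agent.R126

open scoped ContDiff Nat Topology
open Crest.AnalysisR.BoxFlow

/-- Space-time. -/
abbrev ST : Type := ℝ × (Fin 3 → ℝ)

/-- A divergence-free field built from two potentials. -/
noncomputable def curlField (P Q : ST → ℝ) : Field := fun p =>
  ![fderiv ℝ P p (0, Pi.single 2 1), fderiv ℝ Q p (0, Pi.single 2 1),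
    - fderiv ℝ P p (0, Pi.single 0 1) - fderiv ℝ Q p (0, Pi.single 1 1)]

theorem loc_curlField {P Q : ST → ℝ} (hP : Loc ι4 P) (hQ : Loc ι4 Q) (j : Fin 3) :
    Loc ι4 (fun p => curlField P Q p j) := by
  fin_cases j
  · exact hP.pderiv 2
  · exact hQ.pderiv 2
  · exact (hP.pderiv 0).neg.sub (hQ.pderiv 1)

theorem fderiv_fderiv_apply_comm {P : ST → ℝ} (hP : ContDiff ℝ ∞ P) (p v w : ST) :
    fderiv ℝ (fun q => fderiv ℝ P q w) p v = fderiv ℝ (fun q => fderiv ℝ P q v) p w := by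
  have hd : DifferentiableAt ℝ (fderiv ℝ P) p :=
    (hP.fderiv_right (m := ∞) le_rfl).differentiable (by simp) p
  have h1 : ∀ a b : ST, fderiv ℝ (fun q => fderiv ℝ P q a) p b = fderiv ℝ (fderiv ℝ P) p b a := by
    intro a b
    rw [fderiv_clm_apply hd (differentiableAt_const a)]
    simp
  rw [h1, h1]
  exact (hP.contDiffAt.isSymmSndFDerivAt (by simp; exact natCast_le_infty 2)).eq v w

theorem spaceDiv_curlField {P Q : ST → ℝ} (hP : ContDiff ℝ ∞ P) (hQ : ContDiff ℝ ∞ Q) (p : ST) :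
    spaceDiv (curlField P Q) p = 0 := by
  have d1 : ∀ v, DifferentiableAt ℝ (fun q => fderiv ℝ P q v) p := fun v =>
    (contDiff_fderiv_apply hP v).differentiable (by simp) p
  have d2 : ∀ v, DifferentiableAt ℝ (fun q => fderiv ℝ Q q v) p := fun v =>
    (contDiff_fderiv_apply hQ v).differentiable (by simp) p
  have hU : DifferentiableAt ℝ (curlField P Q) p := by
    refine differentiableAt_pi.2 fun j => ?_
    fin_cases j
    · exact d1 _
    · exact d2 _
    · exact (d1 _).neg.sub (d2 _)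
  have h : ∀ (j : Fin 3) (v : ST), fderiv ℝ (curlField P Q) p v j =
      fderiv ℝ (fun q => curlField P Q q j) p v := by
    intro j v
    rw [fderiv_apply hU]
    rfl
  simp only [spaceDiv, h, Fin.sum_univ_three]
  have e0 : (fun q => curlField P Q q 0) = fun q => fderiv ℝ P q (0, Pi.single 2 1) := rfl
  have e1 : (fun q => curlField P Q q 1) = fun q => fderiv ℝ Q q (0, Pi.single 2 1) := rfl
  have e2 : (fun q => curlField P Q q 2) = fun q =>
    - fderiv ℝ P q (0, Pi.single 0 1) - fderiv ℝ Q q (0, Pi.single 1 1) := rfl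
  rw [e0, e1, e2, fderiv_fun_sub (d1 _).fun_neg (d2 _), fderiv_fun_neg,
    fderiv_fderiv_apply_comm hP p (0, Pi.single 0 1), fderiv_fderiv_apply_comm hQ p (0, Pi.single 1 1)]
  simp

theorem curlField_congr {P Q P' Q' : ST → ℝ} {p : ST} (hP : P =ᶠ[𝓝 p] P') (hQ : Q =ᶠ[𝓝 p] Q') :
    curlField P Q p = curlField P' Q' p := by
  simp only [curlField, hP.fderiv_eq, hQ.fderiv_eq]

theorem curlField_zero (p : ST) : curlField (fun _ => 0) (fun _ => 0) p = 0 := by
  funext j
  fin_cases j <;> simp [curlField]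

theorem fderiv_eq_of_affine {f : ST → ℝ} {p v : ST} {D : ℝ} (hf : DifferentiableAt ℝ f p)
    (h : ∀ s : ℝ, f (p + s • v) = f p + s * D) : fderiv ℝ f p v = D := by
  rw [← hf.lineDeriv_eq_fderiv, lineDeriv]
  simp only [h]
  simp

theorem curlField_poly {A β : Fin 3 → ℝ → ℝ} (hA : ∀ j, Differentiable ℝ (A j))
    (hβ : ∀ j, Differentiable ℝ (β j)) (p : ST) (hsum : β 0 p.1 + β 1 p.1 + β 2 p.1 = 0) :
    curlField (fun p => (A 0 p.1 + β 0 p.1 * p.2 0) * p.2 2 - A 2 p.1 * p.2 0)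
      (fun p => (A 1 p.1 + β 1 p.1 * p.2 1) * p.2 2) p = fun j => A j p.1 + β j p.1 * p.2 j := by
  have hP : DifferentiableAt ℝ
      (fun p : ST => (A 0 p.1 + β 0 p.1 * p.2 0) * p.2 2 - A 2 p.1 * p.2 0) p := by
    have := hA 0; have := hA 2; have := hβ 0
    fun_prop
  have hQ : DifferentiableAt ℝ (fun p : ST => (A 1 p.1 + β 1 p.1 * p.2 1) * p.2 2) p := by
    have := hA 1; have := hβ 1
    fun_prop
  have e1 := fderiv_eq_of_affine (v := (0, Pi.single 2 1)) (D := A 0 p.1 + β 0 p.1 * p.2 0) hP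
    (fun s => by simp; ring)
  have e2 := fderiv_eq_of_affine (v := (0, Pi.single 2 1)) (D := A 1 p.1 + β 1 p.1 * p.2 1) hQ
    (fun s => by simp; ring)
  have e3 := fderiv_eq_of_affine (v := (0, Pi.single 0 1)) (D := β 0 p.1 * p.2 2 - A 2 p.1) hP
    (fun s => by simp; ring)
  have e4 := fderiv_eq_of_affine (v := (0, Pi.single 1 1)) (D := β 1 p.1 * p.2 2) hQ
    (fun s => by simp; ring)
  funext j
  fin_cases j
  · exact e1
  · exact e2
  · show - _ - _ = _
    rw [e3, e4]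
    have : β 2 p.1 = - β 0 p.1 - β 1 p.1 := by linarith
    simp only [Fin.reduceFinMk, this]
    ring

/-- A bump equal to `1` on `[-(H - δ), H - δ]` and vanishing outside `(-H, H)`. -/
noncomputable def bump (H δ : ℚ) (y : ℝ) : ℝ :=
  Real.smoothTransition ((H - y) * (δ⁻¹ : ℚ)) * Real.smoothTransition ((H + y) * (δ⁻¹ : ℚ))

theorem loc_bump (H δ : ℚ) : Loc (fun q : ℚ => (q : ℝ)) (bump H δ) :=
  (loc_smoothTransition.comp (((Loc.const H).sub loc_id).mul (Loc.const _))).mul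
    (loc_smoothTransition.comp (((Loc.const H).add loc_id).mul (Loc.const _)))

theorem bump_eq_one {H δ : ℚ} (hδ : 0 < δ) {y : ℝ} (hy : |y| ≤ H - δ) : bump H δ y = 1 := by
  have hδ' : (0 : ℝ) < δ := by exact_mod_cast hδ
  obtain ⟨h1, h2⟩ := abs_le.1 hy
  rw [bump, Real.smoothTransition.one_of_one_le, Real.smoothTransition.one_of_one_le, one_mul]
  all_goals
    push_cast
    rw [← div_eq_mul_inv, le_div_iff₀ hδ']
    linarith

theorem bump_eq_zero {H δ : ℚ} (hδ : 0 < δ) {y : ℝ} (hy : H ≤ |y|) : bump H δ y = 0 := by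
  have hδ' : (0 : ℝ) < ((δ⁻¹ : ℚ) : ℝ) := by exact_mod_cast inv_pos.2 hδ
  rcases le_abs.1 hy with h | h
  · rw [bump, Real.smoothTransition.zero_of_nonpos, zero_mul]
    exact mul_nonpos_of_nonpos_of_nonneg (by linarith) hδ'.le
  · rw [bump, Real.smoothTransition.zero_of_nonpos (x := (H + y) * _), mul_zero]
    exact mul_nonpos_of_nonpos_of_nonneg (by linarith) hδ'.le

theorem exists_extension {n : ℕ} (c lam : Fin n → Fin 3 → ℝ → ℝ) (H : Fin n → Fin 3 → ℚ) {δ : ℚ}
    (hδ : 0 < δ)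
    (hc : ∀ i j, Loc (fun q : ℚ => (q : ℝ)) (c i j))
    (hl : ∀ i j, Loc (fun q : ℚ => (q : ℝ)) (lam i j))
    (hpos : ∀ i j t, 0 < lam i j t)
    (hprod : ∀ i t, lam i 0 t * lam i 1 t * lam i 2 t = 1)
    (hc0 : ∀ i j t, t ∉ Set.Icc (1 / 4 : ℝ) (3 / 4) → deriv (c i j) t = 0)
    (hl0 : ∀ i j t, t ∉ Set.Icc (1 / 4 : ℝ) (3 / 4) → deriv (lam i j) t = 0)
    (hsep : ∀ t i i', i ≠ i' →
      ∃ j, lam i j t * H i j + lam i' j t * H i' j ≤ |c i j t - c i' j t|) :
    ∃ U : Field, ContDiff ℝ ∞ U ∧ HasCompactSupport U ∧ Effective U ∧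
      (∀ p : ST, p.1 ∉ Set.Icc (1 / 4 : ℝ) (3 / 4) → U p = 0) ∧ (∀ p : ST, spaceDiv U p = 0) ∧
      ∀ i t (x : Fin 3 → ℝ), (∀ j, |x j - c i j t| < lam i j t * (H i j - δ)) →
        U (t, x) = fun j => deriv (c i j) t + deriv (lam i j) t / lam i j t * (x j - c i j t) := by
  set χ : Fin n → ST → ℝ := fun i p =>
    ∏ j, bump (H i j) δ ((p.2 j - c i j p.1) / lam i j p.1) with hχ
  set β : Fin n → Fin 3 → ℝ → ℝ := fun i j t => deriv (lam i j) t / lam i j t with hβ
  set A : Fin n → Fin 3 → ℝ → ℝ := fun i j t => deriv (c i j) t - β i j t * c i j t with hA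
  set P₀ : Fin n → ST → ℝ := fun i p =>
    (A i 0 p.1 + β i 0 p.1 * p.2 0) * p.2 2 - A i 2 p.1 * p.2 0 with hP₀
  set Q₀ : Fin n → ST → ℝ := fun i p => (A i 1 p.1 + β i 1 p.1 * p.2 1) * p.2 2 with hQ₀
  set P : ST → ℝ := fun p => ∑ i, χ i p * P₀ i p with hP
  set Q : ST → ℝ := fun p => ∑ i, χ i p * Q₀ i p with hQ
  have lβ : ∀ i j, Loc (fun q : ℚ => (q : ℝ)) (β i j) := fun i j =>
    (hl i j).deriv.div (hl i j) (hpos i j)
  have lA : ∀ i j, Loc (fun q : ℚ => (q : ℝ)) (A i j) := fun i j =>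
    (hc i j).deriv.sub ((lβ i j).mul (hc i j))
  have lχ : ∀ i, Loc ι4 (χ i) := fun i =>
    Loc.prod _ fun j _ => (loc_bump _ _).comp (((loc_coord j).sub ((hc i j).comp loc_time)).div
      ((hl i j).comp loc_time) fun p => hpos i j p.1)
  have lP₀ : ∀ i, Loc ι4 (P₀ i) := fun i =>
    ((((lA i 0).comp loc_time).add (((lβ i 0).comp loc_time).mul (loc_coord 0))).mul
      (loc_coord 2)).sub (((lA i 2).comp loc_time).mul (loc_coord 0))
  have lQ₀ : ∀ i, Loc ι4 (Q₀ i) := fun i =>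
    (((lA i 1).comp loc_time).add (((lβ i 1).comp loc_time).mul (loc_coord 1))).mul (loc_coord 2)
  have lP : Loc ι4 P := Loc.sum _ fun i _ => (lχ i).mul (lP₀ i)
  have lQ : Loc ι4 Q := Loc.sum _ fun i _ => (lχ i).mul (lQ₀ i)
  have hχ0 : ∀ i (p : ST) j, lam i j p.1 * H i j ≤ |p.2 j - c i j p.1| → χ i p = 0 := by
    intro i p j hj
    refine Finset.prod_eq_zero (Finset.mem_univ j) (bump_eq_zero hδ ?_)
    rw [abs_div, abs_of_pos (hpos i j p.1), le_div_iff₀ (hpos i j p.1), mul_comm]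
    exact hj
  -- vanishing outside the time interval
  have htime : ∀ p : ST, p.1 ∉ Set.Icc (1 / 4 : ℝ) (3 / 4) → P p = 0 ∧ Q p = 0 := by
    intro p hp
    have b0 : ∀ i j, β i j p.1 = 0 := fun i j => by simp [hβ, hl0 i j p.1 hp]
    have a0 : ∀ i j, A i j p.1 = 0 := fun i j => by simp [hA, hc0 i j p.1 hp, b0]
    constructor
    · exact Finset.sum_eq_zero fun i _ => by simp [hP₀, a0, b0]
    · exact Finset.sum_eq_zero fun i _ => by simp [hQ₀, a0, b0]
  -- a bound for the moving boxes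
  obtain ⟨R, hR⟩ : ∃ R : ℝ, ∀ t ∈ Set.Icc (1 / 4 : ℝ) (3 / 4), ∀ i j,
      |c i j t| + lam i j t * H i j ≤ R := by
    have hcont : Continuous fun t : ℝ => fun (ij : Fin n × Fin 3) =>
        |c ij.1 ij.2 t| + lam ij.1 ij.2 t * H ij.1 ij.2 :=
      continuous_pi fun ij => ((hc _ _).smooth.continuous.abs).add
        ((hl _ _).smooth.continuous.mul continuous_const)
    obtain ⟨R, hR⟩ := isCompact_Icc.exists_bound_of_continuousOn
      (s := Set.Icc (1 / 4 : ℝ) (3 / 4)) hcont.continuousOn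
    exact ⟨R, fun t ht i j => (le_abs_self _).trans ((norm_le_pi_norm
      (fun (ij : Fin n × Fin 3) => |c ij.1 ij.2 t| + lam ij.1 ij.2 t * H ij.1 ij.2)
      (i, j)).trans (hR t ht))⟩
  have hK : IsCompact (Set.Icc (1 / 4 : ℝ) (3 / 4) ×ˢ Metric.closedBall (0 : Fin 3 → ℝ) |R|) :=
    isCompact_Icc.prod (isCompact_closedBall _ _)
  have hout : ∀ p : ST, p ∉ Set.Icc (1 / 4 : ℝ) (3 / 4) ×ˢ Metric.closedBall (0 : Fin 3 → ℝ) |R| →
      P p = 0 ∧ Q p = 0 := by
    intro p hp
    by_cases ht : p.1 ∈ Set.Icc (1 / 4 : ℝ) (3 / 4)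
    · have hx : ¬ ‖p.2‖ ≤ |R| := fun h => hp ⟨ht, by simpa using h⟩
      rw [pi_norm_le_iff_of_nonneg (abs_nonneg R)] at hx
      push Not at hx
      obtain ⟨j, hj⟩ := hx
      have h0 : ∀ i, χ i p = 0 := fun i => hχ0 i p j (by
        have h1 := hR p.1 ht i j
        have h2 := abs_sub_abs_le_abs_sub (p.2 j) (c i j p.1)
        rw [Real.norm_eq_abs] at hj
        linarith [le_abs_self R])
      exact ⟨Finset.sum_eq_zero fun i _ => by simp [h0], Finset.sum_eq_zero fun i _ => by simp [h0]⟩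
    · exact htime p ht
  have hzero : ∀ S : Set ST, IsOpen S → (∀ p ∈ S, P p = 0 ∧ Q p = 0) →
      ∀ p ∈ S, curlField P Q p = 0 := by
    intro S hS h p hp
    rw [← curlField_zero p]
    apply curlField_congr
    · filter_upwards [hS.mem_nhds hp] with q hq using (h q hq).1
    · filter_upwards [hS.mem_nhds hp] with q hq using (h q hq).2
  have hcs : HasCompactSupport (curlField P Q) :=
    HasCompactSupport.intro hK (hzero _ hK.isClosed.isOpen_compl hout)
  refine ⟨curlField P Q, contDiff_pi.2 fun j => (loc_curlField lP lQ j).smooth, hcs,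
    effective_of_loc (loc_curlField lP lQ) hcs,
    hzero _ (isClosed_Icc.preimage continuous_fst).isOpen_compl htime,
    spaceDiv_curlField lP.smooth lQ.smooth, fun i t x hx => ?_⟩
  set Ω : Set ST := {p | ∀ j, |p.2 j - c i j p.1| < lam i j p.1 * (H i j - δ)} with hΩ
  have hΩo : IsOpen Ω := by
    rw [hΩ, Set.ofPred_forall]
    refine isOpen_iInter_of_finite fun j => isOpen_lt ?_ ?_
    · exact (((continuous_apply j).comp continuous_snd).sub
        ((hc i j).smooth.continuous.comp continuous_fst)).abs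
    · exact ((hl i j).smooth.continuous.comp continuous_fst).mul continuous_const
  have hδ' : (0 : ℝ) < δ := by exact_mod_cast hδ
  have hχΩ : ∀ p ∈ Ω, ∀ F : Fin n → ℝ, ∑ i', χ i' p * F i' = F i := by
    intro p hp F
    rw [Finset.sum_eq_single i]
    · have : χ i p = 1 := Finset.prod_eq_one fun j _ => bump_eq_one hδ (by
        rw [abs_div, abs_of_pos (hpos i j p.1), div_le_iff₀ (hpos i j p.1), mul_comm]
        exact (hp j).le)
      rw [this, one_mul]
    · intro i' _ hi'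
      obtain ⟨j, hj⟩ := hsep p.1 i i' (Ne.symm hi')
      rw [hχ0 i' p j, zero_mul]
      have h1 := hp j
      have h2 := abs_sub_le (c i j p.1) (p.2 j) (c i' j p.1)
      rw [abs_sub_comm (c i j p.1) (p.2 j)] at h2
      nlinarith [hpos i j p.1]
    · simp
  have hmem : (t, x) ∈ Ω := hx
  have hsum : β i 0 t + β i 1 t + β i 2 t = 0 := by
    have hd : ∀ j, HasDerivAt (lam i j) (deriv (lam i j) t) t := fun j =>
      ((hl i j).smooth.differentiable (by simp) t).hasDerivAt
    have h1 := ((hd 0).mul (hd 1)).mul (hd 2)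
    have h2 : (lam i 0 * lam i 1 * lam i 2) = fun _ => 1 := funext (hprod i)
    rw [h2] at h1
    have h3 := h1.unique (hasDerivAt_const t 1)
    have p0 := (hpos i 0 t).ne'
    have p1 := (hpos i 1 t).ne'
    have p2 := (hpos i 2 t).ne'
    simp only [hβ]
    simp only [Pi.mul_apply] at h3
    field_simp
    linear_combination h3
  rw [curlField_congr (P' := P₀ i) (Q' := Q₀ i)]
  · rw [curlField_poly (fun j => (lA i j).smooth.differentiable (by simp))
      (fun j => (lβ i j).smooth.differentiable (by simp)) (t, x) hsum]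
    funext j
    simp only [hA, hβ]
    ring
  · filter_upwards [hΩo.mem_nhds hmem] with p hp using hχΩ p hp _
  · filter_upwards [hΩo.mem_nhds hmem] with p hp using hχΩ p hp _

end Crest.Agent.R126
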