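import Mathlib
import Crest.Agent.Lib.RatPrimrec.Basic

/-!
Locally effective smooth scalar functions: smooth functions with primitive recursive bounds for all
derivatives on each ball and primitive recursive approximations of their values at rational points
of each ball.
-/

set_option autoImplicit false

namespace Crest.Agent.R126

open scoped ContDiff Nat
open Crest.Agent.Lib.RatPrimrec

variable {X Q : Type*} [NormedAddCommGroup X] [NormedSpace ℝ X] [Primcodable Q]

/-- Primitive recursive bounds for the derivatives on each ball. -/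
def LBdd (f : X → ℝ) : Prop :=
  ∀ R : ℕ, ∃ B : ℕ → ℕ, Primrec B ∧
    ∀ (k i : ℕ) (x : X), i ≤ k → ‖x‖ ≤ R → ‖iteratedFDeriv ℝ i f x‖ ≤ B k

/-- Primitive recursive approximations of the values at coded points of each ball. -/
def LVal (ι : Q → X) (f : X → ℝ) : Prop :=
  ∀ R : ℕ, ∃ E : Q × ℕ → ℚ, Primrec E ∧
    ∀ (q : Q) (n : ℕ), ‖ι q‖ ≤ R → |f (ι q) - E (q, n)| ≤ 1 / ((n : ℝ) + 1)

/-- Locally effective smooth functions. -/
structure Loc (ι : Q → X) (f : X → ℝ) : Prop where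
  smooth : ContDiff ℝ ∞ f
  bdd : LBdd f
  val : LVal ι f

theorem natCast_le_infty (i : ℕ) : (i : WithTop ℕ∞) ≤ ∞ := by exact_mod_cast le_top

theorem LBdd.exists_bound {f : X → ℝ} (hf : LBdd f) (R : ℕ) :
    ∃ A : ℕ, ∀ x : X, ‖x‖ ≤ R → |f x| ≤ A := by
  obtain ⟨B, -, hB⟩ := hf R
  refine ⟨B 0, fun x hx => ?_⟩
  have := hB 0 0 x le_rfl hx
  rwa [norm_iteratedFDeriv_zero] at this

theorem LBdd.exists_lipschitz {f : X → ℝ} (hf : LBdd f) (hs : ContDiff ℝ ∞ f) (R : ℕ) :
    ∃ A : ℕ, ∀ x y : X, ‖x‖ ≤ R → ‖y‖ ≤ R → |f x - f y| ≤ A * ‖x - y‖ := by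
  obtain ⟨B, -, hB⟩ := hf R
  refine ⟨B 1, fun x y hx hy => ?_⟩
  have h := (convex_closedBall (0 : X) R).norm_image_sub_le_of_norm_fderiv_le (𝕜 := ℝ) (f := f)
    (C := B 1) (fun z _ => (hs.differentiable (by simp)) z)
    (fun z hz => by
      have := hB 1 1 z le_rfl (by simpa using hz)
      rwa [norm_iteratedFDeriv_one] at this)
    (x := y) (y := x) (by simpa using hy) (by simpa using hx)
  simpa using h

namespace Loc

variable {ι : Q → X} {f g : X → ℝ}

theorem congr (hf : Loc ι f) (h : ∀ x, f x = g x) : Loc ι g := by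
  have : f = g := funext h
  rwa [← this]

theorem const (c : ℚ) : Loc ι (fun _ => (c : ℝ)) := by
  refine ⟨contDiff_const, fun R => ⟨fun _ => ⌈|(c : ℝ)|⌉₊, Primrec.const _, ?_⟩,
    fun R => ⟨fun _ => c, Primrec.const _, ?_⟩⟩
  · intro k i x _ _
    rcases Nat.eq_zero_or_pos i with rfl | hi
    · rw [norm_iteratedFDeriv_zero]
      exact Nat.le_ceil _
    · rw [iteratedFDeriv_const_of_ne hi.ne']
      simp
  · intro q n _
    simp only [sub_self, abs_zero]
    positivity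

theorem clm (L : X →L[ℝ] ℝ) (π : Q → ℚ) (hπ : Primrec π) (h : ∀ q, L (ι q) = π q) :
    Loc ι L := by
  refine ⟨L.contDiff, fun R => ⟨fun _ => ⌈‖L‖ * (R + 1)⌉₊, Primrec.const _, ?_⟩,
    fun R => ⟨fun p => π p.1, hπ.comp Primrec.fst, ?_⟩⟩
  · intro k i x _ hx
    refine le_trans ?_ (Nat.le_ceil _)
    have hR : (0 : ℝ) ≤ R := Nat.cast_nonneg R
    rcases i with _ | i
    · rw [norm_iteratedFDeriv_zero]
      refine (L.le_opNorm x).trans ?_
      gcongr
      linarith
    · rw [← norm_iteratedFDeriv_fderiv]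
      have : fderiv ℝ L = fun _ => L := by
        funext y
        exact L.fderiv
      rw [this]
      rcases Nat.eq_zero_or_pos i with rfl | hi
      · rw [norm_iteratedFDeriv_zero]
        nlinarith [norm_nonneg L]
      · rw [iteratedFDeriv_const_of_ne hi.ne']
        simp only [Pi.zero_apply, norm_zero]
        positivity
  · intro q n _
    simp only [h, sub_self, abs_zero]
    positivity

theorem add (hf : Loc ι f) (hg : Loc ι g) : Loc ι (fun x => f x + g x) := by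
  refine ⟨hf.smooth.add hg.smooth, fun R => ?_, fun R => ?_⟩
  · obtain ⟨B, hB, hB'⟩ := hf.bdd R
    obtain ⟨C, hC, hC'⟩ := hg.bdd R
    refine ⟨fun k => B k + C k, Primrec.nat_add.comp hB hC, fun k i x hi hx => ?_⟩
    have h := iteratedFDeriv_add_apply (𝕜 := ℝ) (i := i) (x := x)
      (hf.smooth.contDiffAt.of_le (natCast_le_infty i))
      (hg.smooth.contDiffAt.of_le (natCast_le_infty i))
    have h2 : (fun x => f x + g x) = f + g := rfl
    rw [h2, h]
    push_cast
    exact (norm_add_le _ _).trans (add_le_add (hB' k i x hi hx) (hC' k i x hi hx))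
  · obtain ⟨E, hE, hE'⟩ := hf.val R
    obtain ⟨F, hF, hF'⟩ := hg.val R
    have hm : Primrec fun p : Q × ℕ => (p.1, 2 * p.2 + 1) :=
      Primrec.fst.pair (Primrec.nat_double_succ.comp Primrec.snd)
    refine ⟨fun p => E (p.1, 2 * p.2 + 1) + F (p.1, 2 * p.2 + 1),
      rat_add.comp (hE.comp hm) (hF.comp hm), fun q n hq => ?_⟩
    have h1 := hE' q (2 * n + 1) hq
    have h2 := hF' q (2 * n + 1) hq
    have h3 : (1 : ℝ) / (((2 * n + 1 : ℕ) : ℝ) + 1) = 1 / ((n : ℝ) + 1) / 2 := by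
      push_cast
      field_simp
      ring
    rw [h3] at h1 h2
    push_cast
    rw [abs_le] at h1 h2 ⊢
    constructor <;> linarith [h1.1, h1.2, h2.1, h2.2]

theorem mul (hf : Loc ι f) (hg : Loc ι g) : Loc ι (fun x => f x * g x) := by
  refine ⟨hf.smooth.mul hg.smooth, fun R => ?_, fun R => ?_⟩
  · obtain ⟨B, hB, hB'⟩ := hf.bdd R
    obtain ⟨C, hC, hC'⟩ := hg.bdd R
    refine ⟨fun k => 2 ^ k * (B k * C k),
      Primrec.nat_mul.comp (nat_pow.comp (Primrec.const 2) Primrec.id) (Primrec.nat_mul.comp hB hC),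
      fun k i x hi hx => ?_⟩
    refine (norm_iteratedFDeriv_mul_le hf.smooth hg.smooth x (natCast_le_infty i)).trans ?_
    have h1 : ∑ j ∈ Finset.range (i + 1), (i.choose j : ℝ) * ‖iteratedFDeriv ℝ j f x‖ *
        ‖iteratedFDeriv ℝ (i - j) g x‖ ≤
        ∑ j ∈ Finset.range (i + 1), (i.choose j : ℝ) * ((B k : ℝ) * C k) := by
      refine Finset.sum_le_sum fun j hj => ?_
      have hj' : j ≤ i := Nat.lt_succ_iff.1 (Finset.mem_range.1 hj)
      rw [mul_assoc]
      gcongr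
      · exact hB' k j x (hj'.trans hi) hx
      · exact hC' k (i - j) x ((Nat.sub_le _ _).trans hi) hx
    refine h1.trans ?_
    rw [← Finset.sum_mul, ← Nat.cast_sum, Nat.sum_range_choose]
    push_cast
    gcongr
    norm_num
  · obtain ⟨E, hE, hE'⟩ := hf.val R
    obtain ⟨F, hF, hF'⟩ := hg.val R
    obtain ⟨A, hA⟩ := hf.bdd.exists_bound R
    obtain ⟨A', hA'⟩ := hg.bdd.exists_bound R
    have hm : Primrec fun p : Q × ℕ => (p.1, (A + A' + 1) * (p.2 + 1)) :=
      Primrec.fst.pair (Primrec.nat_mul.comp (Primrec.const _) (Primrec.succ.comp Primrec.snd))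
    refine ⟨fun p => E (p.1, (A + A' + 1) * (p.2 + 1)) * F (p.1, (A + A' + 1) * (p.2 + 1)),
      rat_mul.comp (hE.comp hm) (hF.comp hm), fun q n hq => ?_⟩
    have h1 := hE' q ((A + A' + 1) * (n + 1)) hq
    have h2 := hF' q ((A + A' + 1) * (n + 1)) hq
    have h3 := hA _ hq
    have h4 := hA' _ hq
    push_cast at h1 h2 ⊢
    set a := f (ι q)
    set b := g (ι q)
    set c : ℝ := ((E (q, (A + A' + 1) * (n + 1)) : ℚ) : ℝ)
    set d : ℝ := ((F (q, (A + A' + 1) * (n + 1)) : ℚ) : ℝ)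
    set δ : ℝ := 1 / (((A : ℝ) + A' + 1) * (n + 1) + 1) with hδ
    have hn : (0 : ℝ) ≤ n := Nat.cast_nonneg n
    have hA0 : (0 : ℝ) ≤ A := Nat.cast_nonneg A
    have hA0' : (0 : ℝ) ≤ A' := Nat.cast_nonneg A'
    have hδ1 : δ ≤ 1 := by
      rw [hδ, div_le_one (by positivity)]
      have : (0 : ℝ) ≤ ((A : ℝ) + A' + 1) * (n + 1) := by positivity
      linarith
    have hδ0 : 0 ≤ δ := by positivity
    have hc : |c| ≤ A + 1 := by
      have : c = a - (a - c) := by ring
      rw [this]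
      exact (abs_sub _ _).trans (by linarith)
    have key : a * b - c * d = (a - c) * b + c * (b - d) := by ring
    rw [key]
    refine (abs_add_le _ _).trans ?_
    rw [abs_mul, abs_mul]
    have h5 : |a - c| * |b| ≤ δ * A' := by gcongr
    have h6 : |c| * |b - d| ≤ (A + 1) * δ := by gcongr
    have h7 : δ * (A + A' + 1) ≤ 1 / ((n : ℝ) + 1) := by
      rw [hδ, div_mul_eq_mul_div, div_le_div_iff₀ (by positivity) (by positivity)]
      nlinarith
    linarith

theorem neg (hf : Loc ι f) : Loc ι (fun x => - f x) :=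
  ((const (-1)).mul hf).congr fun x => by simp

theorem sub (hf : Loc ι f) (hg : Loc ι g) : Loc ι (fun x => f x - g x) :=
  (hf.add hg.neg).congr fun x => by ring

theorem sum {κ : Type*} (s : Finset κ) {F : κ → X → ℝ} (hF : ∀ i ∈ s, Loc ι (F i)) :
    Loc ι (fun x => ∑ i ∈ s, F i x) := by
  classical
  induction s using Finset.induction_on with
  | empty => exact (const 0).congr fun x => by simp
  | insert a s ha ih =>
    refine ((hF a (Finset.mem_insert_self _ _)).add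
      (ih fun i hi => hF i (Finset.mem_insert_of_mem hi))).congr fun x => ?_
    rw [Finset.sum_insert ha]

theorem prod {κ : Type*} (s : Finset κ) {F : κ → X → ℝ} (hF : ∀ i ∈ s, Loc ι (F i)) :
    Loc ι (fun x => ∏ i ∈ s, F i x) := by
  classical
  induction s using Finset.induction_on with
  | empty => exact (const 1).congr fun x => by simp
  | insert a s ha ih =>
    refine ((hF a (Finset.mem_insert_self _ _)).mul
      (ih fun i hi => hF i (Finset.mem_insert_of_mem hi))).congr fun x => ?_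
    rw [Finset.prod_insert ha]

theorem comp_bound_aux {i k C D : ℕ} (hi : i ≤ k) :
    ((i ! : ℕ) : ℝ) * (C : ℝ) * ((D : ℝ) + 1) ^ i ≤ ((k ^ k * C * (D + 1) ^ k : ℕ) : ℝ) := by
  push_cast
  have h1 : ((i ! : ℕ) : ℝ) ≤ (k : ℝ) ^ k := by
    exact_mod_cast (Nat.factorial_le hi).trans (Nat.factorial_le_pow k)
  have hD : (0 : ℝ) ≤ D := Nat.cast_nonneg D
  gcongr
  linarith

theorem le_succ_pow_aux {a : ℝ} {D i : ℕ} (h : a ≤ D) (hi : 1 ≤ i) : a ≤ ((D : ℝ) + 1) ^ i := by
  have hD : (0 : ℝ) ≤ D := Nat.cast_nonneg D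
  calc a ≤ (D : ℝ) + 1 := by linarith
    _ = ((D : ℝ) + 1) ^ 1 := by ring
    _ ≤ ((D : ℝ) + 1) ^ i := pow_le_pow_right₀ (by linarith) hi

theorem comp {u : ℝ → ℝ} (hu : Loc (fun q : ℚ => (q : ℝ)) u) (hf : Loc ι f) :
    Loc ι (fun x => u (f x)) := by
  refine ⟨hu.smooth.comp hf.smooth, fun R => ?_, fun R => ?_⟩
  · obtain ⟨B, hB, hB'⟩ := hf.bdd R
    obtain ⟨A, hA⟩ := hf.bdd.exists_bound R
    obtain ⟨C, hC, hC'⟩ := hu.bdd A
    refine ⟨fun k => k ^ k * C k * (B k + 1) ^ k,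
      Primrec.nat_mul.comp (Primrec.nat_mul.comp (nat_pow.comp Primrec.id Primrec.id) hC)
        (nat_pow.comp (Primrec.succ.comp hB) Primrec.id), fun k i x hi hx => ?_⟩
    refine le_trans ?_ (comp_bound_aux hi)
    exact norm_iteratedFDeriv_comp_le hu.smooth hf.smooth (natCast_le_infty i) x
      (fun j hj => hC' k j (f x) (hj.trans hi) (hA x hx))
      (fun j hj hj' => le_succ_pow_aux (hB' k j x (hj'.trans hi) hx) hj)
  · obtain ⟨E, hE, hE'⟩ := hf.val R
    obtain ⟨A, hA⟩ := hf.bdd.exists_bound R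
    obtain ⟨F, hF, hF'⟩ := hu.val (A + 1)
    obtain ⟨L, hL⟩ := hu.bdd.exists_lipschitz hu.smooth (A + 1)
    have hm : Primrec fun p : Q × ℕ => (L + 1) * (p.2 + 1) :=
      Primrec.nat_mul.comp (Primrec.const _) (Primrec.succ.comp Primrec.snd)
    refine ⟨fun p => F (E (p.1, (L + 1) * (p.2 + 1)), (L + 1) * (p.2 + 1)),
      hF.comp ((hE.comp (Primrec.fst.pair hm)).pair hm), fun q n hq => ?_⟩
    have h1 := hE' q ((L + 1) * (n + 1)) hq
    have h3 := hA _ hq
    set a := f (ι q)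
    set c : ℚ := E (q, (L + 1) * (n + 1))
    have hn : (0 : ℝ) ≤ n := Nat.cast_nonneg n
    have hL0 : (0 : ℝ) ≤ L := Nat.cast_nonneg L
    push_cast at h1
    set δ : ℝ := 1 / (((L : ℝ) + 1) * (n + 1) + 1) with hδ
    have hδ1 : δ ≤ 1 := by
      rw [hδ, div_le_one (by positivity)]
      have : (0 : ℝ) ≤ ((L : ℝ) + 1) * (n + 1) := by positivity
      linarith
    have hc : |(c : ℝ)| ≤ A + 1 := by
      have : (c : ℝ) = a - (a - c) := by ring
      rw [this]
      exact (abs_sub _ _).trans (by linarith)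
    have hc' : ‖(c : ℝ)‖ ≤ ((A + 1 : ℕ) : ℝ) := by
      rw [Real.norm_eq_abs]; push_cast; exact hc
    have h2 := hF' c ((L + 1) * (n + 1)) hc'
    push_cast at h2
    rw [← hδ] at h2
    have h4 := hL a c (by push_cast; rw [Real.norm_eq_abs]; linarith) hc'
    rw [Real.norm_eq_abs] at h4
    have h5 : (L : ℝ) * |a - c| ≤ L * δ := by gcongr
    have h7 : δ * (L + 1) ≤ 1 / ((n : ℝ) + 1) := by
      rw [hδ, div_mul_eq_mul_div, div_le_div_iff₀ (by positivity) (by positivity)]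
      nlinarith
    have key : u a - F (c, (L + 1) * (n + 1)) =
        (u a - u c) + (u c - F (c, (L + 1) * (n + 1))) := by ring
    rw [key]
    refine (abs_add_le _ _).trans ?_
    linarith

theorem norm_iteratedFDerivWithin_inv_le {y : ℝ} {M : ℕ} (hM : 0 < M) (hy : 1 / (M : ℝ) ≤ y)
    {j k : ℕ} (hj : j ≤ k) :
    ‖iteratedFDerivWithin ℝ j (fun z : ℝ => z⁻¹) (Set.Ioi 0) y‖ ≤ ((k ^ k * M ^ (k + 1) : ℕ) : ℝ) := by
  have hM' : (1 : ℝ) ≤ M := by exact_mod_cast hM
  have hy0 : 0 < y := lt_of_lt_of_le (by positivity) hy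
  rw [iteratedFDerivWithin_of_isOpen j isOpen_Ioi (show y ∈ Set.Ioi (0 : ℝ) from hy0),
    norm_iteratedFDeriv_eq_norm_iteratedDeriv, iteratedDeriv_eq_iterate]
  have h := iter_deriv_inv j y
  have h' : (fun z : ℝ => z⁻¹) = Inv.inv := rfl
  rw [h', h, norm_mul, norm_mul]
  have h1 : ‖y ^ (-1 - (j : ℤ))‖ ≤ (M : ℝ) ^ (k + 1) := by
    have : y ^ (-1 - (j : ℤ)) = (y⁻¹) ^ (j + 1) := by
      rw [inv_pow, ← zpow_natCast, ← zpow_neg]
      congr 1
      push_cast
      ring
    rw [this, Real.norm_eq_abs, abs_of_nonneg (by positivity)]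
    have h2 : y⁻¹ ≤ M := by
      rw [inv_le_comm₀ hy0 (by positivity)]
      simpa using hy
    calc (y⁻¹) ^ (j + 1) ≤ (M : ℝ) ^ (j + 1) := by gcongr
      _ ≤ (M : ℝ) ^ (k + 1) := pow_le_pow_right₀ hM' (by omega)
  have h2 : ‖((j ! : ℕ) : ℝ)‖ ≤ (k : ℝ) ^ k := by
    rw [Real.norm_eq_abs, abs_of_nonneg (by positivity)]
    exact_mod_cast (Nat.factorial_le hj).trans (Nat.factorial_le_pow k)
  push_cast
  simp only [norm_pow, norm_neg, norm_one, one_pow, one_mul]
  gcongr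

theorem inv [ProperSpace X] (hf : Loc ι f) (hpos : ∀ x, 0 < f x) : Loc ι (fun x => (f x)⁻¹) := by
  have hlow : ∀ R : ℕ, ∃ M : ℕ, 0 < M ∧ ∀ x : X, ‖x‖ ≤ R → 1 / (M : ℝ) ≤ f x := by
    intro R
    obtain ⟨x₀, -, hx₀⟩ := (isCompact_closedBall (0 : X) R).exists_isMinOn
      ⟨0, by simp⟩ hf.smooth.continuous.continuousOn
    obtain ⟨M, hM⟩ := exists_nat_one_div_lt (hpos x₀)
    refine ⟨M + 1, Nat.succ_pos _, fun x hx => ?_⟩
    push_cast
    exact hM.le.trans (hx₀ (by simpa using hx))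
  refine ⟨hf.smooth.inv fun x => (hpos x).ne', fun R => ?_, fun R => ?_⟩
  · obtain ⟨B, hB, hB'⟩ := hf.bdd R
    obtain ⟨M, hM, hM'⟩ := hlow R
    refine ⟨fun k => k ^ k * (k ^ k * M ^ (k + 1)) * (B k + 1) ^ k,
      Primrec.nat_mul.comp (Primrec.nat_mul.comp (nat_pow.comp Primrec.id Primrec.id)
        (Primrec.nat_mul.comp (nat_pow.comp Primrec.id Primrec.id)
          (nat_pow.comp (Primrec.const M) Primrec.succ)))
        (nat_pow.comp (Primrec.succ.comp hB) Primrec.id), fun k i x hi hx => ?_⟩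
    refine le_trans ?_ (comp_bound_aux hi)
    exact norm_iteratedFDeriv_comp_le' (g := fun z : ℝ => z⁻¹) (t := Set.Ioi 0)
      (by rintro _ ⟨y, rfl⟩; exact hpos y) (uniqueDiffOn_Ioi 0)
      ((contDiffOn_inv ℝ).mono fun z hz => (ne_of_gt hz)) hf.smooth (natCast_le_infty i) x
      (fun j hj => norm_iteratedFDerivWithin_inv_le hM (hM' x hx) (hj.trans hi))
      (fun j hj hj' => le_succ_pow_aux (hB' k j x (hj'.trans hi) hx) hj)
  · obtain ⟨E, hE, hE'⟩ := hf.val R
    obtain ⟨M, hM, hM'⟩ := hlow R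
    have hm : Primrec fun p : Q × ℕ => (p.1, 2 * M ^ 2 * (p.2 + 1)) :=
      Primrec.fst.pair (Primrec.nat_mul.comp (Primrec.const _) (Primrec.succ.comp Primrec.snd))
    refine ⟨fun p => (E (p.1, 2 * M ^ 2 * (p.2 + 1)))⁻¹, rat_inv.comp (hE.comp hm),
      fun q n hq => ?_⟩
    have h1 := hE' q (2 * M ^ 2 * (n + 1)) hq
    have h3 := hM' _ hq
    push_cast at h1 ⊢
    set a := f (ι q)
    set c : ℝ := ((E (q, 2 * M ^ 2 * (n + 1)) : ℚ) : ℝ)
    have hn : (0 : ℝ) ≤ n := Nat.cast_nonneg n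
    have hM1 : (1 : ℝ) ≤ M := by exact_mod_cast hM
    have h4 : |a - c| ≤ 1 / (2 * (M : ℝ) ^ 2 * (n + 1)) := by
      refine h1.trans ?_
      gcongr
      linarith
    have h5 : 1 / (2 * (M : ℝ) ^ 2 * (n + 1)) ≤ 1 / (2 * M) := by
      apply one_div_le_one_div_of_le (by positivity)
      have : (M : ℝ) ≤ M ^ 2 := by nlinarith
      nlinarith
    have h6 : 1 / (2 * (M : ℝ)) ≤ c := by
      have h7 : 1 / (M : ℝ) = 2 * (1 / (2 * M)) := by field_simp
      have := (abs_le.1 (h4.trans h5)).2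
      linarith
    have ha : 0 < a := lt_of_lt_of_le (by positivity) h3
    have hc : 0 < c := lt_of_lt_of_le (by positivity) h6
    have key : a⁻¹ - c⁻¹ = (c - a) * a⁻¹ * c⁻¹ := by field_simp
    have ha' : a⁻¹ ≤ M := by
      rw [inv_le_comm₀ ha (by positivity)]
      simpa using h3
    have hc' : c⁻¹ ≤ 2 * M := by
      rw [inv_le_comm₀ hc (by positivity)]
      simpa only [one_div] using h6
    rw [key, abs_mul, abs_mul, abs_sub_comm, abs_of_pos (inv_pos.2 ha), abs_of_pos (inv_pos.2 hc)]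
    calc |a - c| * a⁻¹ * c⁻¹ ≤ 1 / (2 * (M : ℝ) ^ 2 * (n + 1)) * M * (2 * M) := by gcongr
      _ = 1 / ((n : ℝ) + 1) := by field_simp

theorem div [ProperSpace X] (hf : Loc ι f) (hg : Loc ι g) (hpos : ∀ x, 0 < g x) :
    Loc ι (fun x => f x / g x) :=
  (hf.mul (hg.inv hpos)).congr fun x => by rw [div_eq_mul_inv]

end Loc

end Crest.Agent.R126
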