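import Crest.Agent.R126.Glue
import Crest.Prelude.Def_BoxFlow

/-!
A collision-free motion of the boxes from their sources to their targets.
-/

set_option autoImplicit false

namespace Crest.Agent.R126

open scoped ContDiff Nat Topology
open Crest.AnalysisR.BoxFlow Filter

theorem sep_of_disjoint {a a' h h' : Fin 3 → ℚ} (hh : ∀ j, 0 < h j) (hh' : ∀ j, 0 < h' j)
    (hd : Disjoint (box a h) (box a' h')) : ∃ j, h j + h' j < |a j - a' j| := by
  by_contra hcon
  push Not at hcon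
  have hd' := Set.disjoint_left.1 hd
  refine @hd' (ratPoint fun j => a j + (a' j - a j) * (h j / (h j + h' j)))
    (fun j => ?_) (fun j => ?_)
  · have h1 := hh j
    have h2 := hh' j
    have h3 := hcon j
    simp only [ratPoint]
    norm_cast
    rw [add_sub_cancel_left, abs_mul, abs_of_pos (by positivity : 0 < h j / (h j + h' j)),
      abs_sub_comm]
    calc _ ≤ (h j + h' j) * (h j / (h j + h' j)) := by gcongr
      _ = h j := by field_simp
  · have h1 := hh j
    have h2 := hh' j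
    have h3 := hcon j
    simp only [ratPoint]
    norm_cast
    have : a j + (a' j - a j) * (h j / (h j + h' j)) - a' j =
        (a j - a' j) * (h' j / (h j + h' j)) := by
      field_simp
      ring
    rw [this, abs_mul, abs_of_pos (by positivity : 0 < h' j / (h j + h' j))]
    calc _ ≤ (h j + h' j) * (h' j / (h j + h' j)) := by gcongr
      _ = h' j := by field_simp

theorem exists_margin {n : ℕ} (a h r : Fin n → Fin 3 → ℚ)
    (hs : ∀ i i', i ≠ i' → ∃ j, r i j * h i j + r i' j * h i' j < |a i j - a i' j|) :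
    ∀ᶠ δ in 𝓝[>] (0 : ℚ), ∀ i i', i ≠ i' →
      ∃ j, r i j * (h i j + 2 * δ) + r i' j * (h i' j + 2 * δ) < |a i j - a i' j| := by
  refine eventually_all.2 fun i => eventually_all.2 fun i' => eventually_all.2 fun hii' => ?_
  obtain ⟨j, hj⟩ := hs i i' hii'
  have hc : ContinuousAt (fun δ : ℚ => r i j * (h i j + 2 * δ) + r i' j * (h i' j + 2 * δ)) 0 := by
    fun_prop
  have := hc.eventually_lt continuousAt_const (g := fun _ => |a i j - a i' j|) (by simpa using hj)
  exact (this.filter_mono nhdsWithin_le_nhds).mono fun δ hδ => ⟨j, hδ⟩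

theorem exists_generic {κ : Type*} [Finite κ] (u v : κ → Fin 3 → ℝ) :
    ∃ w : Fin 3 → ℚ, ∀ m, ratPoint w ∉ Submodule.span ℝ {u m, v m} := by
  classical
  have hopen : ∀ m, IsOpen ((Submodule.span ℝ {u m, v m} : Set (Fin 3 → ℝ))ᶜ) := fun m =>
    (Submodule.closed_of_finiteDimensional _).isOpen_compl
  have hdense : ∀ m, Dense ((Submodule.span ℝ {u m, v m} : Set (Fin 3 → ℝ))ᶜ) := by
    intro m
    rw [← interior_eq_empty_iff_dense_compl]
    by_contra hne
    have h1 := Submodule.eq_top_of_nonempty_interior' _ (Set.nonempty_iff_ne_empty.2 hne)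
    refine (span_lt_top_of_card_lt_finrank (R := ℝ) (s := {u m, v m}) ?_).ne h1
    simp only [Set.toFinset_insert, Set.toFinset_singleton, Module.finrank_fintype_fun_eq_card,
      Fintype.card_fin]
    exact lt_of_le_of_lt Finset.card_le_two (by norm_num)
  have h1 : Dense (⋂ m, (Submodule.span ℝ {u m, v m} : Set (Fin 3 → ℝ))ᶜ) :=
    dense_iInter_of_isOpen hopen hdense
  have h2 : DenseRange (Pi.map fun (_ : Fin 3) (q : ℚ) => (q : ℝ)) :=
    DenseRange.piMap fun _ => Rat.denseRange_cast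
  obtain ⟨w, hw⟩ := h2.exists_mem_open (isOpen_iInter_of_finite hopen) h1.nonempty
  exact ⟨w, fun m => Set.mem_iInter.1 hw m⟩

/-- The time change. -/
noncomputable def σ (t : ℝ) : ℝ := Real.smoothTransition (2 * t - 1 / 2)

theorem loc_σ : Loc (fun q : ℚ => (q : ℝ)) σ :=
  loc_smoothTransition.comp ((((Loc.const 2).mul loc_id).sub (Loc.const (1 / 2))).congr
    fun x => by simp)

theorem σ_nonneg (t : ℝ) : 0 ≤ σ t := Real.smoothTransition.nonneg _

theorem σ_le_one (t : ℝ) : σ t ≤ 1 := Real.smoothTransition.le_one _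

theorem σ_of_le {t : ℝ} (ht : t ≤ 1 / 4) : σ t = 0 :=
  Real.smoothTransition.zero_of_nonpos (by linarith)

theorem σ_of_ge {t : ℝ} (ht : 3 / 4 ≤ t) : σ t = 1 :=
  Real.smoothTransition.one_of_one_le (by linarith)

theorem deriv_comp_σ (G : ℝ → ℝ) {t : ℝ} (ht : t ∉ Set.Icc (1 / 4 : ℝ) (3 / 4)) :
    deriv (fun t => G (σ t)) t = 0 := by
  rw [Set.mem_Icc, not_and_or, not_le, not_le] at ht
  rcases ht with ht | ht
  · have : (fun t => G (σ t)) =ᶠ[𝓝 t] fun _ => G 0 := by
      filter_upwards [Iio_mem_nhds ht] with s hs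
      rw [σ_of_le hs.le]
    rw [this.deriv_eq, deriv_const]
  · have : (fun t => G (σ t)) =ᶠ[𝓝 t] fun _ => G 1 := by
      filter_upwards [Ioi_mem_nhds ht] with s hs
      rw [σ_of_ge hs.le]
    rw [this.deriv_eq, deriv_const]

/-- The scale factors along the motion. -/
noncomputable def scale (r : Fin 3 → ℚ) (j : Fin 3) (s : ℝ) : ℝ :=
  ![1 + s * (r 0 - 1), 1 + s * (r 1 - 1), ((1 + s * (r 0 - 1)) * (1 + s * (r 1 - 1)))⁻¹] j

theorem interp_pos {r : ℚ} (hr : 0 < r) {s : ℝ} (h0 : 0 ≤ s) (h1 : s ≤ 1) :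
    0 < 1 + s * (r - 1) := by
  have hr' : (0 : ℝ) < r := by exact_mod_cast hr
  rcases h1.eq_or_lt with rfl | h1
  · simpa using hr'
  · nlinarith [mul_nonneg h0 hr'.le]

theorem scale_pos {r : Fin 3 → ℚ} (hr : ∀ j, 0 < r j) (j : Fin 3) (t : ℝ) :
    0 < scale r j (σ t) := by
  have h0 := interp_pos (hr 0) (σ_nonneg t) (σ_le_one t)
  have h1 := interp_pos (hr 1) (σ_nonneg t) (σ_le_one t)
  fin_cases j
  · exact h0
  · exact h1
  · exact inv_pos.2 (mul_pos h0 h1)

theorem scale_prod {r : Fin 3 → ℚ} (hr : ∀ j, 0 < r j) (t : ℝ) :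
    scale r 0 (σ t) * scale r 1 (σ t) * scale r 2 (σ t) = 1 := by
  have h0 := interp_pos (hr 0) (σ_nonneg t) (σ_le_one t)
  have h1 := interp_pos (hr 1) (σ_nonneg t) (σ_le_one t)
  exact mul_inv_cancel₀ (mul_pos h0 h1).ne'

theorem loc_scale {r : Fin 3 → ℚ} (hr : ∀ j, 0 < r j) (j : Fin 3) :
    Loc (fun q : ℚ => (q : ℝ)) (fun t => scale r j (σ t)) := by
  have h : ∀ j, Loc (fun q : ℚ => (q : ℝ)) (fun t => 1 + σ t * (r j - 1)) := fun j =>
    ((Loc.const 1).add (loc_σ.mul ((Loc.const (r j)).sub (Loc.const 1)))).congr fun x => by simp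
  fin_cases j
  · exact h 0
  · exact h 1
  · exact ((h 0).mul (h 1)).inv fun t => mul_pos (interp_pos (hr 0) (σ_nonneg t) (σ_le_one t))
      (interp_pos (hr 1) (σ_nonneg t) (σ_le_one t))

theorem scale_zero (r : Fin 3 → ℚ) (j : Fin 3) : scale r j 0 = 1 := by
  fin_cases j <;> simp [scale]

theorem scale_one {r : Fin 3 → ℚ} (hr : ∏ j, r j = 1) (j : Fin 3) : scale r j 1 = r j := by
  rw [Fin.prod_univ_three] at hr
  have hr' : (r 0 : ℝ) * r 1 * r 2 = 1 := by exact_mod_cast hr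
  fin_cases j
  · simp [scale]
  · simp [scale]
  · simp only [scale, one_mul, add_sub_cancel]
    exact (eq_inv_of_mul_eq_one_right hr').symm

theorem exists_motion (n : ℕ) (a b h k : Fin n → Fin 3 → ℚ)
    (hh : ∀ i j, 0 < h i j) (hk : ∀ i j, 0 < k i j)
    (ha : Pairwise fun i i' => Disjoint (box (a i) (h i)) (box (a i') (h i')))
    (hb : Pairwise fun i i' => Disjoint (box (b i) (k i)) (box (b i') (k i')))
    (hvol : ∀ i, ∏ j : Fin 3, k i j / h i j = 1) :
    ∃ (c lam : Fin n → Fin 3 → ℝ → ℝ) (δ : ℚ), 0 < δ ∧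
      (∀ i j, Loc (fun q : ℚ => (q : ℝ)) (c i j)) ∧
      (∀ i j, Loc (fun q : ℚ => (q : ℝ)) (lam i j)) ∧
      (∀ i j t, 0 < lam i j t) ∧ (∀ i t, lam i 0 t * lam i 1 t * lam i 2 t = 1) ∧
      (∀ i j t, t ∉ Set.Icc (1 / 4 : ℝ) (3 / 4) → deriv (c i j) t = 0) ∧
      (∀ i j t, t ∉ Set.Icc (1 / 4 : ℝ) (3 / 4) → deriv (lam i j) t = 0) ∧
      (∀ t i i', i ≠ i' → ∃ j, lam i j t * ((h i j + 2 * δ : ℚ) : ℝ) +
        lam i' j t * ((h i' j + 2 * δ : ℚ) : ℝ) ≤ |c i j t - c i' j t|) ∧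
      (∀ i j, c i j 0 = a i j) ∧ (∀ i j, lam i j 0 = 1) ∧
      (∀ i j, c i j 1 = b i j) ∧ (∀ i j, lam i j 1 = (k i j / h i j : ℚ)) := by
  set r : Fin n → Fin 3 → ℚ := fun i j => k i j / h i j with hr
  have hrpos : ∀ i j, 0 < r i j := fun i j => div_pos (hk i j) (hh i j)
  have sa : ∀ i i', i ≠ i' → ∃ j, h i j + h i' j < |a i j - a i' j| := fun i i' hi =>
    sep_of_disjoint (hh i) (hh i') (ha hi)
  have sb : ∀ i i', i ≠ i' → ∃ j, k i j + k i' j < |b i j - b i' j| := fun i i' hi =>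
    sep_of_disjoint (hk i) (hk i') (hb hi)
  have ea := exists_margin a h (fun _ _ => 1) (by simpa using sa)
  have eb := exists_margin b h r (fun i i' hi => by
    obtain ⟨j, hj⟩ := sb i i' hi
    refine ⟨j, ?_⟩
    simp only [hr]
    rwa [div_mul_cancel₀ _ (hh i j).ne', div_mul_cancel₀ _ (hh i' j).ne'])
  obtain ⟨δ, ⟨hδa, hδb⟩, hδ⟩ := ((ea.and eb).and self_mem_nhdsWithin).exists
  obtain ⟨w, hw⟩ := exists_generic (κ := Fin n × Fin n)
    (fun m => ratPoint (a m.1) - ratPoint (a m.2)) (fun m => ratPoint (b m.1) - ratPoint (b m.2))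
  set γ : Fin n → Fin 3 → ℝ → ℝ := fun i j s =>
    (1 - s) * a i j + s * b i j + s * (1 - s) * ((i : ℕ) * w j) with hγ
  have hγne : ∀ i i', i ≠ i' → ∀ s : ℝ, 0 < s → s < 1 → ∃ j, γ i j s ≠ γ i' j s := by
    intro i i' hi s hs0 hs1
    by_contra hcon
    push Not at hcon
    apply hw (i, i')
    have hne : ((i : ℕ) : ℝ) - (i' : ℕ) ≠ 0 := by
      rw [sub_ne_zero]
      exact_mod_cast fun h => hi (Fin.ext h)
    rw [Submodule.mem_span_pair]
    refine ⟨-(s * (((i : ℕ) : ℝ) - (i' : ℕ)))⁻¹, -((1 - s) * (((i : ℕ) : ℝ) - (i' : ℕ)))⁻¹, ?_⟩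
    funext j
    have h1 := hcon j
    have h2 : (1 - s) ≠ 0 := by linarith
    simp only [hγ] at h1
    simp only [Pi.add_apply, Pi.smul_apply, Pi.sub_apply, ratPoint, smul_eq_mul]
    field_simp
    linear_combination (-1 : ℝ) * h1
  have lγ : ∀ i j, Loc (fun q : ℚ => (q : ℝ)) (fun t => γ i j (σ t)) := fun i j =>
    (((((Loc.const 1).sub loc_σ).mul (Loc.const (a i j))).add (loc_σ.mul (Loc.const (b i j)))).add
      ((loc_σ.mul ((Loc.const 1).sub loc_σ)).mul (Loc.const ((i : ℕ) * w j)))).congr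
      fun t => by simp [hγ]
  set V : ℕ → Set ℝ := fun M => {t | ∀ i i', i ≠ i' → ∃ j,
    scale (r i) j (σ t) * ((h i j + 2 * δ : ℚ) : ℝ) +
      scale (r i') j (σ t) * ((h i' j + 2 * δ : ℚ) : ℝ) <
      (1 + M * (σ t * (1 - σ t))) * |γ i j (σ t) - γ i' j (σ t)|} with hV
  have hσc : Continuous σ := loc_σ.smooth.continuous
  have hVo : ∀ M, IsOpen (V M) := by
    intro M
    simp only [hV, Set.ofPred_forall, Set.ofPred_exists]
    refine isOpen_iInter_of_finite fun i => isOpen_iInter_of_finite fun i' =>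
      isOpen_iInter_of_finite fun _ => isOpen_iUnion fun j => isOpen_lt ?_ ?_
    · exact ((loc_scale (hrpos i) j).smooth.continuous.mul continuous_const).add
        ((loc_scale (hrpos i') j).smooth.continuous.mul continuous_const)
    · exact (continuous_const.add (continuous_const.mul (hσc.mul (continuous_const.sub hσc)))).mul
        ((lγ i j).smooth.continuous.sub (lγ i' j).smooth.continuous).abs
  have hnn : ∀ t, 0 ≤ σ t * (1 - σ t) := fun t =>
    mul_nonneg (σ_nonneg t) (sub_nonneg.2 (σ_le_one t))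
  have hVmono : Monotone V := by
    intro M M' hM t ht i i' hi
    obtain ⟨j, hj⟩ := ht i i' hi
    refine ⟨j, hj.trans_le ?_⟩
    have : (M : ℝ) ≤ M' := by exact_mod_cast hM
    have := hnn t
    gcongr
  have hV0 : ∀ M t, σ t = 0 → t ∈ V M := by
    intro M t ht i i' hi
    obtain ⟨j, hj⟩ := hδa i i' hi
    refine ⟨j, ?_⟩
    simp only [ht, scale_zero, hγ, one_mul, zero_mul, mul_zero, add_zero, sub_zero] at hj ⊢
    exact_mod_cast hj
  have hV1 : ∀ M t, σ t = 1 → t ∈ V M := by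
    intro M t ht i i' hi
    obtain ⟨j, hj⟩ := hδb i i' hi
    refine ⟨j, ?_⟩
    simp only [ht, scale_one (hvol _), hγ, one_mul, zero_mul, mul_zero, add_zero, sub_self,
      zero_add, hr] at hj ⊢
    exact_mod_cast hj
  have hcover : Set.Icc (0 : ℝ) 1 ⊆ ⋃ M, V M := by
    intro t _
    rw [Set.mem_iUnion]
    rcases (σ_nonneg t).eq_or_lt with h0 | h0
    · exact ⟨0, hV0 0 t h0.symm⟩
    rcases (σ_le_one t).eq_or_lt with h1 | h1
    · exact ⟨0, hV1 0 t h1⟩
    have : ∀ᶠ M : ℕ in atTop, t ∈ V M := by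
      refine eventually_all.2 fun i => eventually_all.2 fun i' => eventually_all.2 fun hi => ?_
      obtain ⟨j, hj⟩ := hγne i i' hi _ h0 h1
      have hp : 0 < |γ i j (σ t) - γ i' j (σ t)| := abs_pos.2 (sub_ne_zero.2 hj)
      have ht : Tendsto (fun M : ℕ => (1 + M * (σ t * (1 - σ t))) * |γ i j (σ t) - γ i' j (σ t)|)
          atTop atTop :=
        (tendsto_atTop_add_const_left _ _ (tendsto_natCast_atTop_atTop.atTop_mul_const
          (mul_pos h0 (sub_pos.2 h1)))).atTop_mul_const hp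
      exact (ht.eventually_gt_atTop _).mono fun M hM => ⟨j, hM⟩
    exact this.exists
  obtain ⟨M, hM⟩ := isCompact_Icc.elim_directed_cover V hVo hcover hVmono.directed_le
  have hall : ∀ t, t ∈ V M := by
    intro t
    rcases le_total t 0 with h0 | h0
    · exact hV0 M t (σ_of_le (by linarith))
    rcases le_total t 1 with h1 | h1
    · exact hM ⟨h0, h1⟩
    · exact hV1 M t (σ_of_ge (by linarith))
  have s0 : σ 0 = 0 := σ_of_le (by norm_num)
  have s1 : σ 1 = 1 := σ_of_ge (by norm_num)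
  refine ⟨fun i j t => (1 + M * (σ t * (1 - σ t))) * γ i j (σ t),
    fun i j t => scale (r i) j (σ t), δ, hδ, fun i j => ?_, fun i j => loc_scale (hrpos i) j,
    fun i j t => scale_pos (hrpos i) j t, fun i t => scale_prod (hrpos i) t,
    fun i j t ht => deriv_comp_σ (fun s => (1 + M * (s * (1 - s))) * γ i j s) ht,
    fun i j t ht => deriv_comp_σ (scale (r i) j) ht, fun t i i' hi => ?_, fun i j => ?_,
    fun i j => ?_, fun i j => ?_, fun i j => ?_⟩
  · exact (((Loc.const 1).add ((Loc.const M).mul (loc_σ.mul ((Loc.const 1).sub loc_σ)))).mul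
      (lγ i j)).congr fun t => by simp
  · obtain ⟨j, hj⟩ := hall t i i' hi
    refine ⟨j, hj.le.trans (le_of_eq ?_)⟩
    have := hnn t
    rw [← mul_sub, abs_mul, abs_of_nonneg (a := 1 + _) (by positivity)]
  · simp [s0, hγ]
  · simp [s0, scale_zero]
  · simp [s1, hγ]
  · simp only [s1, scale_one (hvol i), hr]

end Crest.Agent.R126
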